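import Vale.Agent.P231.S3B4c.Ray
import Vale.Agent.P231.XC.PairI

/-!
# P231, stage 3, [S3-B] S3-CMP (7): the value of the fibre integrals of `μ` on the cycle
-/

set_option maxSynthPendingDepth 3
set_option linter.unusedSectionVars false
set_option linter.unusedVariables false

open Bundle Manifold Set Filter Module MeasureTheory Metric
open scoped ContDiff Manifold Topology ENNReal

namespace Vale.Agent.P231.S3B4c

noncomputable section

open Vale.Agent.P234 Vale.Agent.P231 Vale.Agent.P231.Fm Vale.Agent.P231.W Vale.Agent.P231.WR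
open Vale.Agent.P231.WF Vale.Agent.P231.H766 Vale.Agent.P231.S2N Vale.Agent.P231.S3S
open Vale.Agent.P231.S2II Vale.Agent.P231.TW Vale.Agent.P231.H584 Vale.Agent.P231.XC
open Vale.Agent.P231.S3C

variable {E : Type*} [NormedAddCommGroup E] [NormedSpace ℝ E]
  {M : Type*} [MetricSpace M] [ChartedSpace E M]
  [RiemannianBundle (fun x : M => TangentSpace 𝓘(ℝ, E) x)]
  {e : ∀ x : M, TangentSpace 𝓘(ℝ, E) x → M}
  [FiniteDimensional ℝ E] [IsManifold 𝓘(ℝ, E) ∞ M]
  [IsContMDiffRiemannianBundle 𝓘(ℝ, E) ∞ E (fun x : M => TangentSpace 𝓘(ℝ, E) x)]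
  [CompactSpace M] [ConnectedSpace M] [IsRiemannianManifold 𝓘(ℝ, E) M]

variable {D : ℝ} {ι : Type} [Fintype ι] [DecidableEq ι]

variable {F : Facts e} {hD : 0 < D} {hB : InjGE e D} {hdiam : ∀ p q : M, dist p q ≤ D}
  {l : ℕ} {X δ : ι → UT E M → E} {ε : ℝ}

variable {V : Type} [NormedAddCommGroup V] [NormedSpace ℝ V] [FiniteDimensional ℝ V]
  {G₁ : V → UT E M} {f : Fin l → V → EuclideanSpace ℝ ι}

/-- orthonormal vectors of the negative space are a frame of the matrix -/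
theorem isFr_of (v : UT E M) {g : Fin l → EuclideanSpace ℝ ι} (hg : Orthonormal ℝ g)
    (hpm : ∀ i, Pm F D X δ ε v (g i) = g i) :
    IsFr (pX F D X δ ε v) fun i => WithLp.ofLp (g i) where
  fix j := by
    funext i
    have h1 := pX_mulVec F D X δ ε v (g j) i
    rw [hpm j] at h1
    exact h1
  on j k := by
    have h1 := orthonormal_iff_ite.1 hg j k
    rw [PiLp.inner_apply] at h1
    rw [← h1, dotProduct]
    refine Finset.sum_congr rfl fun i _ => ?_
    simp [mul_comm]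

/-- the frames of `ξ ⊗ ℂ` along the plot `A` -/
def fr2 (hV : Vec F D X δ ε G₁ f) (ho : ∀ x, Orthonormal ℝ fun i => f i x) (p : V × Eul l) :
    XC.Fr (fun x : Xi F D X δ ε => pX F D X δ ε x.v) l :=
  XC.Fr.mk (hV.A p) (fun i => WithLp.ofLp (f i p.1)) (isFr_of (G₁ p.1) (ho p.1) fun i => hV.pm i p.1)

@[simp] theorem fr2_b (hV : Vec F D X δ ε G₁ f) (ho : ∀ x, Orthonormal ℝ fun i => f i x)
    (p : V × Eul l) : (fr2 hV ho p).b = hV.A p := rfl

@[simp] theorem fr2_f (hV : Vec F D X δ ε G₁ f) (ho : ∀ x, Orthonormal ℝ fun i => f i x)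
    (p : V × Eul l) : (fr2 hV ho p).f = fun i => WithLp.ofLp (f i p.1) := rfl

theorem at_fr2 (hV : Vec F D X δ ε G₁ f) (ho : ∀ x, Orthonormal ℝ fun i => f i x)
    (p : V × Eul l) :
    (XC.dFr (dXi F D X δ ε) (fun x : Xi F D X δ ε => pX F D X δ ε x.v) l).At (fr2 hV ho) p := by
  refine ⟨hV.at_A p, ?_⟩
  change Sm (fun q : V × Eul l => fun i => WithLp.ofLp (f i q.1)) p
  refine Sm.of_contDiff (contDiff_pi.2 fun i => contDiff_pi.2 fun j => ?_) p
  exact (contDiff_euclidean.1 (hV.sm i) j).comp contDiff_fst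

/-- the plot `((x, a), w) ↦ (G₁ x, f(x) a, f(x) (w / |w|))` of the sphere bundle -/
def Phi [NeZero l] (hV : Vec F D X δ ε G₁ f) (ho : ∀ x, Orthonormal ℝ fun i => f i x)
    (z : (V × Eul l) × Fl l) : XS fun x : Xi F D X δ ε => pX F D X δ ε x.v :=
  XC.ev (fr2 hV ho z.1, (‖z.2‖⁻¹ : ℝ) • z.2)

theorem norm_cmbE {g : Fin l → EuclideanSpace ℝ ι} (hg : Orthonormal ℝ g) (y : Eul l) :
    ‖cmbE g y‖ = ‖y‖ := by
  have h1 : ‖cmbE g y‖ ^ 2 = ‖y‖ ^ 2 := by
    rw [← real_inner_self_eq_norm_sq, cmbE_apply, sum_inner]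
    simp only [inner_sum, inner_smul_left, inner_smul_right, orthonormal_iff_ite.1 hg]
    rw [EuclideanSpace.norm_sq_eq]
    refine Finset.sum_congr rfl fun i _ => ?_
    simp [sq]
  exact (sq_eq_sq₀ (norm_nonneg _) (norm_nonneg _)).1 h1

/-- the vectors of the negative space are combinations of an orthonormal family -/
theorem cmbE_cofE (h : Fam F hD hB hdiam l X δ ε) (v : UT E M) {g : Fin l → EuclideanSpace ℝ ι}
    (hg : Orthonormal ℝ g) (hpm : ∀ i, Pm F D X δ ε v (g i) = g i) {w : EuclideanSpace ℝ ι}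
    (hw : Pm F D X δ ε v w = w) : cmbE g (cofE g w) = w := by
  let R := LinearMap.range ((Pm F D X δ ε v : EuclideanSpace ℝ ι →L[ℝ] EuclideanSpace ℝ ι) :
    EuclideanSpace ℝ ι →ₗ[ℝ] EuclideanSpace ℝ ι)
  let S := LinearMap.range ((cmbE g : Eul l →L[ℝ] EuclideanSpace ℝ ι) :
    Eul l →ₗ[ℝ] EuclideanSpace ℝ ι)
  have h1 : S ≤ R := by
    rintro _ ⟨y, rfl⟩
    refine ⟨cmbE g y, ?_⟩
    change Pm F D X δ ε v (cmbE g y) = cmbE g y
    rw [cmbE_apply, map_sum]
    exact Finset.sum_congr rfl fun i _ => by rw [map_smul, hpm]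
  have h2 : finrank ℝ S = finrank ℝ R := by
    have h3 : finrank ℝ R = l := h.finrank_range v
    rw [h3]
    have h4 := LinearMap.finrank_range_of_inj (f := ((cmbE g :
      Eul l →L[ℝ] EuclideanSpace ℝ ι) : Eul l →ₗ[ℝ] EuclideanSpace ℝ ι))
      (cmbE_inj hg.linearIndependent)
    refine h4.trans ?_
    exact finrank_euclideanSpace_fin
  have h3 : S = R := Submodule.eq_of_le_of_finrank_eq h1 h2
  have h4 : w ∈ S := by
    rw [h3]
    exact ⟨w, hw⟩
  obtain ⟨y, rfl⟩ := h4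
  change cmbE g (cofE g (cmbE g y)) = _
  rw [cofE_cmbE hg]
  rfl

theorem at_Phi [NeZero l] (hV : Vec F D X δ ε G₁ f) (ho : ∀ x, Orthonormal ℝ fun i => f i x)
    {z : (V × Eul l) × Fl l} (hz : z.2 ≠ 0) :
    (XC.dX (dXi F D X δ ε) fun x : Xi F D X δ ε => pX F D X δ ε x.v).At (Phi hV ho) z := by
  refine map_ev (u := fun z : (V × Eul l) × Fl l => (fr2 hV ho z.1, (‖z.2‖⁻¹ : ℝ) • z.2))
    (x := z) ⟨⟨?_, ?_⟩, ?_⟩
  · exact Dif.comp _ (u := fr2 hV ho) (g := Prod.fst) (x := z) (at_fr2 hV ho z.1)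
      (Sm.of_contDiff contDiff_fst _)
  · exact Co.sm_normalize (f := fun z : (V × Eul l) × Fl l => z.2)
      (Sm.of_contDiff contDiff_snd _) hz
  · filter_upwards [continuous_snd.continuousAt.eventually_ne hz] with y hy
    change ‖(‖y.2‖⁻¹ : ℝ) • y.2‖ = 1
    rw [norm_smul, norm_inv, norm_norm, inv_mul_cancel₀ (norm_ne_zero_iff.2 hy)]

theorem Phi_b [NeZero l] (hV : Vec F D X δ ε G₁ f) (ho : ∀ x, Orthonormal ℝ fun i => f i x)
    (z : (V × Eul l) × Fl l) : (Phi hV ho z).b = hV.A z.1 := ev_b _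

/-- over the points where `G₁` is constant the form vanishes along `Phi` -/
theorem val_Phi_far [NeZero l] (h : Fam F hD hB hdiam l X δ ε) (hV : Vec F D X δ ε G₁ f)
    (ho : ∀ x, Orthonormal ℝ fun i => f i x) {v₀ : UT E M} (hout : ∀ x, 1 < ‖x‖ → G₁ x = v₀)
    {N : ℕ} (hN : 3 * l < N)
    {μ : Form (XC.dX (dXi F D X δ ε) fun x : Xi F D X δ ε => pX F D X δ ε x.v)}
    (hμ : Form.IsDeg N μ) {z : (V × Eul l) × Fl l} (hz : z.2 ≠ 0) (hx : 1 < ‖z.1.1‖) :
    μ.val (Phi hV ho) z = 0 := by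
  set x₀ := z.1.1 with hx₀
  let c : Eul l × Fl l → XS fun x : Xi F D X δ ε => pX F D X δ ε x.v :=
    fun q => Phi hV ho ((x₀, q.1), q.2)
  let O : V → Matrix (Fin l) (Fin l) ℝ := fun x =>
    tr2 (fun i => WithLp.ofLp (f i x₀)) fun i => WithLp.ofLp (f i x)
  let g : (V × Eul l) × Fl l → Eul l × Fl l := fun y =>
    (cofE (fun i => f i x₀) (cmbE (fun i => f i y.1.1) y.1.2), gO (O y.1.1) y.2)
  have hX : Pj (dXi F D X δ ε) (fun x : Xi F D X δ ε => pX F D X δ ε x.v) l :=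
    (pj h).comp map_Xi_v
  have hOn : ∀ y : (V × Eul l) × Fl l, 1 < ‖y.1.1‖ →
      hV.A (x₀, cofE (fun i => f i x₀) (cmbE (fun i => f i y.1.1) y.1.2)) = hV.A y.1 := by
    intro y hy
    have e1 : G₁ y.1.1 = G₁ x₀ := by rw [hout _ hy, hout _ hx]
    refine Xi.ext e1.symm ?_
    change cmbE (fun i => f i x₀) (cofE (fun i => f i x₀) (cmbE (fun i => f i y.1.1) y.1.2)) =
      cmbE (fun i => f i y.1.1) y.1.2
    refine cmbE_cofE h (G₁ x₀) (ho x₀) (fun i => hV.pm i x₀) ?_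
    rw [← e1]
    exact hV.pm_cmbE _ _
  have hgn : ∀ y : (V × Eul l) × Fl l, 1 < ‖y.1.1‖ →
      (∀ ξ, ‖gO (O y.1.1) ξ‖ = ‖ξ‖) ∧ ∀ ξ, ‖ξ‖ = 1 → ev (fr2 hV ho y.1, ξ) =
        ev (fr2 hV ho (x₀, cofE (fun i => f i x₀) (cmbE (fun i => f i y.1.1) y.1.2)),
          gO (O y.1.1) ξ) := by
    intro y hy
    have h1 := ev_tr2 hX
      (fr2 hV ho (x₀, cofE (fun i => f i x₀) (cmbE (fun i => f i y.1.1) y.1.2)))
      (fr2 hV ho y.1) (hOn y hy)
    exact ⟨h1.1, h1.2.2⟩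
  have hg : Sm g z := by
    refine Sm.prodMk ?_ ?_
    · refine Sm.of_contDiff ?_ z
      rw [contDiff_euclidean]
      intro i
      change ContDiff ℝ ∞ fun y : (V × Eul l) × Fl l =>
        inner ℝ (f i x₀) (cmbE (fun i => f i y.1.1) y.1.2)
      exact contDiff_const.inner ℝ (((contDiff_cmbE hV.sm).comp
        (contDiff_fst.comp contDiff_fst)).clm_apply (contDiff_snd.comp contDiff_fst))
    · have h1 : ∀ j k, Sm (fun y : (V × Eul l) × Fl l => O y.1.1 j k) z := fun j k => by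
        refine Sm.of_contDiff (ContDiff.sum fun i _ => ContDiff.mul contDiff_const ?_) z
        exact (contDiff_euclidean.1 (hV.sm k) i).comp (contDiff_fst.comp contDiff_fst)
      have h2 := sm_gO h1
      filter_upwards [h2] with y hy
      exact hy.clm_apply contDiffAt_snd
  have hgz : (g z).2 ≠ 0 := by
    intro h0
    have h1 := (hgn z hx).1 z.2
    have h2 : gO (O z.1.1) z.2 = 0 := h0
    rw [h2, norm_zero] at h1
    exact hz (norm_eq_zero.1 h1.symm)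
  have hc : (XC.dX (dXi F D X δ ε) fun x : Xi F D X δ ε => pX F D X δ ε x.v).At c (g z) := by
    refine Dif.comp _ (u := Phi hV ho) (g := fun q : Eul l × Fl l => ((x₀, q.1), q.2))
      (x := g z) (at_Phi hV ho hgz) (Sm.of_contDiff ?_ _)
    exact (contDiff_const.prodMk contDiff_fst).prodMk contDiff_snd
  refine val_eq_zero_of_finrank hμ hc hg ?_ ?_
  · have h1 : Continuous fun y : (V × Eul l) × Fl l => ‖y.1.1‖ := by fun_prop
    filter_upwards [h1.continuousAt.eventually (lt_mem_nhds hx),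
      continuous_snd.continuousAt.eventually_ne hz] with y hy1 hy2
    obtain ⟨k1, k2⟩ := hgn y hy1
    change ev (fr2 hV ho y.1, (‖y.2‖⁻¹ : ℝ) • y.2) =
      ev (fr2 hV ho (x₀, cofE (fun i => f i x₀) (cmbE (fun i => f i y.1.1) y.1.2)),
        (‖gO (O y.1.1) y.2‖⁻¹ : ℝ) • gO (O y.1.1) y.2)
    rw [k2 _ (by rw [norm_smul, norm_inv, norm_norm, inv_mul_cancel₀ (norm_ne_zero_iff.2 hy2)]),
      k1, map_smul]
  · rw [finrank_prod, finrank_euclideanSpace_fin, finrank_euclideanSpace_fin]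
    omega

variable [MeasurableSpace V] [BorelSpace V]

/-- **S3-CMP** -/
theorem cmp [NeZero l] (hP : ∀ x y : M, dist x y = D → finrank ℝ (H775.Pl e D x y) = l + 1)
    (h : Fam F hD hB hdiam l X δ ε) {b : Form (dPr e D)} (hb : Orn F hD hB hdiam (l := l) b)
    (hl : Odd l) (hV : Vec F D X δ ε G₁ f) (ho : ∀ x, Orthonormal ℝ fun i => f i x)
    {v₀ : UT E M} (hout : ∀ x, 1 < ‖x‖ → G₁ x = v₀) {n : ℕ} (hn : 1 < n)
    (bV : Basis (Fin n) ℝ V) :
    ∃ c : ℝ, c ^ 2 = 1 ∧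
      ∀ μ : Form (XC.dX (dXi F D X δ ε) fun x : Xi F D X δ ε => pX F D X δ ε x.v),
      Form.IsDeg (3 * l + n - 1) μ → (∃ τ, μ.d = Form.pull XS.b map_b τ) →
      Zer (XS.b ⁻¹' {p : Xi F D X δ ε | 1 ≤ ‖p.a‖}) μ →
      JJ bV (fun x => (SL F hD hB hdiam hP hb hl (Form.K (Form.pull (pol hP h) (map_pol hP h)
        ((bun ((pj h).comp map_Xi_v)).SI (ob l) μ)))).val G₁ x) =
        c * JJ (pB (pB bV (bas l).toBasis) (ob l).toBasis)
          (fun p => dx (fderiv ℝ Co.chi p) * μ.val (Phi hV ho) p) := by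
  set hX : Pj (dXi F D X δ ε) (fun x : Xi F D X δ ε => pX F D X δ ε x.v) l :=
    (pj h).comp map_Xi_v with hhX
  have hl0 : 0 < l := NeZero.pos l
  obtain ⟨c, hc, hcν⟩ := JJ_SL hP h hb hl hV ho hout (by omega) bV
  refine ⟨c, hc, fun μ hμ hμd hμz => ?_⟩
  have hodd : (-1 : ℝ) ^ (2 * l + 1) = -1 := by rw [pow_succ, pow_mul]; norm_num
  have hone : (bun hX).SI (ob l)
      (1 : Form (XC.dX (dXi F D X δ ε) fun x : Xi F D X δ ε => pX F D X δ ε x.v)) = 0 :=
    SI_rot hX Basic.one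
  -- the fibre integral
  have hνd : ((bun hX).SI (ob l) μ).d = 0 := by
    obtain ⟨τ, hτ⟩ := hμd
    have h1 := (bun hX).SI_d (ob l) μ
    rw [hτ, hodd, neg_one_smul] at h1
    have h2 := (bun hX).SI_π_mul (ob l) τ
      (1 : Form (XC.dX (dXi F D X δ ε) fun x : Xi F D X δ ε => pX F D X δ ε x.v))
    rw [mul_one, hone, mul_zero] at h2
    have h3 : (bun hX).SI (ob l) (Form.pull XS.b map_b τ) = 0 := h2
    rw [h3] at h1
    exact neg_eq_zero.1 h1.symm
  have hνg : Form.IsDeg (l + n) ((bun hX).SI (ob l) μ) :=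
    (bun hX).isDeg_SI (ob l) hμ (by omega)
  have hνz : Zer (XiOne F D X δ ε) ((bun hX).SI (ob l) μ) := Zer.SI (ob l) (bun hX) hμz
  rw [hcν _ hνd hνg hνz]
  congr 1
  refine JJ_SI (bun hX) (ob l) (pB bV (bas l).toBasis) (fr := fr2 hV ho) (at_fr2 hV ho) μ
    (K := closedBall (0 : V) 1 ×ˢ closedBall (0 : Eul l) 1)
    ((isCompact_closedBall _ _).prod (isCompact_closedBall _ _)) fun p hp w hw => ?_
  by_cases hx : 1 < ‖p.1‖
  · exact val_Phi_far (z := (p, w)) h hV ho hout (by omega) hμ hw hx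
  · push Not at hx
    have ha : 1 < ‖p.2‖ := by
      by_contra hcon
      push Not at hcon
      exact hp ⟨mem_closedBall_zero_iff.2 hx, mem_closedBall_zero_iff.2 hcon⟩
    refine hμz.out (at_Phi (z := (p, w)) hV ho hw) ?_
    have h1 : Continuous fun y : (V × Eul l) × Fl l => ‖y.1.2‖ := by fun_prop
    filter_upwards [h1.continuousAt.eventually (lt_mem_nhds (a := 1) (b := ‖((p, w) :
      (V × Eul l) × Fl l).1.2‖) ha)] with y hy
    change 1 ≤ ‖(Phi hV ho y).b.a‖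
    rw [Phi_b, Vec.A_a, norm_cmbE (ho _)]
    exact le_of_lt hy

end

end Vale.Agent.P231.S3B4c
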