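import Vale.Agent.P231.TW.Prod

/-!
# P231, stage 3, [S3-B] S3-CMP (2): changes of variables
-/

set_option maxSynthPendingDepth 3
set_option linter.unusedSectionVars false
set_option linter.unusedVariables false

open Module MeasureTheory Set Metric Filter
open scoped ContDiff Topology

namespace Vale.Agent.P231.S3B4c

open Fm TW

noncomputable section

variable {W : Type*} [NormedAddCommGroup W] [NormedSpace ℝ W] [FiniteDimensional ℝ W]
  [MeasurableSpace W] [BorelSpace W]

/-- change of variables along a smooth bijection with invertible derivative -/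
theorem exists_cv {N : ℕ} (b : Basis (Fin N) ℝ W) {L : W → W} (hL : ContDiff ℝ ∞ L)
    (hinj : Function.Injective L) (hsurj : Function.Surjective L)
    (hdet : ∀ x, (fderiv ℝ L x).det ≠ 0) :
    ∃ ε : ℝ, ε ^ 2 = 1 ∧ ∀ w : W → Lam W, JJ b (pb L w) = ε * JJ b w := by
  have hc : Continuous fun x => (fderiv ℝ L x).det := by
    have h1 : Continuous (fderiv ℝ L) := hL.continuous_fderiv (by simp)
    exact ContinuousLinearMap.continuous_det.comp h1
  -- the sign of the determinant is constant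
  have hsign : (∀ x, 0 < (fderiv ℝ L x).det) ∨ ∀ x, (fderiv ℝ L x).det < 0 := by
    by_contra hcon
    push Not at hcon
    obtain ⟨⟨x, hx⟩, y, hy⟩ := hcon
    have h1 := mem_range_of_exists_le_of_exists_ge hc ⟨x, hx⟩ ⟨y, hy⟩
    obtain ⟨z, hz⟩ := h1
    exact hdet z hz
  have key : ∀ (ε : ℝ), (∀ x, (fderiv ℝ L x).det = ε * |(fderiv ℝ L x).det|) →
      ∀ w : W → Lam W, JJ b (pb L w) = ε * JJ b w := by
    intro ε hε w
    have h1 := integral_image_eq_integral_abs_det_fderiv_smul b.addHaar MeasurableSet.univ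
      (f := L) (f' := fderiv ℝ L)
      (fun x _ => ((hL.differentiable (by simp) x).hasFDerivAt).hasFDerivWithinAt)
      hinj.injOn (fun x => evalForm (w x) b)
    rw [image_univ, hsurj.range_eq, Measure.restrict_univ] at h1
    unfold JJ
    rw [h1, ← integral_const_mul]
    refine integral_congr_ae (Eventually.of_forall fun x => ?_)
    change evalForm (pb L w x) b = ε * (|(fderiv ℝ L x).det| • evalForm (w (L x)) b)
    rw [pb, evalForm_pull_det, smul_eq_mul, ← mul_assoc, ← hε x]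
  rcases hsign with h | h
  · exact ⟨1, one_pow 2, key 1 fun x => by rw [abs_of_pos (h x), one_mul]⟩
  · exact ⟨-1, by norm_num, key (-1) fun x => by rw [abs_of_neg (h x)]; ring⟩

/-- a linear change of coordinates -/
theorem exists_cv_equiv {W' : Type*} [NormedAddCommGroup W'] [NormedSpace ℝ W']
    [FiniteDimensional ℝ W'] [MeasurableSpace W'] [BorelSpace W'] {N : ℕ}
    (b : Basis (Fin N) ℝ W) (b' : Basis (Fin N) ℝ W') (L : W ≃L[ℝ] W') :
    ∃ ε : ℝ, ε ^ 2 = 1 ∧ ∀ w : W' → Lam W', JJ b (pb L w) = ε * JJ b' w := by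
  let A : W' ≃L[ℝ] W' := ((b'.equiv (b.map L.toLinearEquiv) (Equiv.refl _))).toContinuousLinearEquiv
  obtain ⟨ε, h1, h2⟩ := exists_cv b' (L := A) A.contDiff A.injective A.surjective (fun x => by
    rw [A.fderiv]
    have h3 : LinearMap.det (A.toLinearEquiv : W' →ₗ[ℝ] W') ≠ 0 :=
      (LinearEquiv.isUnit_det' A.toLinearEquiv).ne_zero
    exact h3)
  refine ⟨ε, h1, fun w => ?_⟩
  rw [JJ_pb_equiv]
  have h3 := JJ_pb_equiv b' A w
  have h4 : b'.map A.toLinearEquiv = b.map L.toLinearEquiv := by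
    refine DFunLike.ext _ _ fun i => ?_
    rw [Basis.map_apply]
    change (b'.equiv (b.map L.toLinearEquiv) (Equiv.refl _)) (b' i) = _
    rw [Basis.equiv_apply]
    rfl
  rw [h4] at h3
  rw [← h3, h2]

section Flm

variable {V G : Type*} [NormedAddCommGroup V] [NormedSpace ℝ V] [FiniteDimensional ℝ V]
  [MeasurableSpace V] [BorelSpace V] [NormedAddCommGroup G] [NormedSpace ℝ G]
  [FiniteDimensional ℝ G] [MeasurableSpace G] [BorelSpace G]

/-- a family of linear maps -/
def flm (M : V → G →L[ℝ] G) (p : V × G) : V × G := (p.1, M p.1 p.2)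

theorem contDiff_flm {M : V → G →L[ℝ] G} (hM : ContDiff ℝ ∞ M) : ContDiff ℝ ∞ (flm M) :=
  contDiff_fst.prodMk ((hM.comp contDiff_fst).clm_apply contDiff_snd)

/-- change of variables along a family of invertible linear maps -/
theorem exists_cv_flm {N : ℕ} (b : Basis (Fin N) ℝ (V × G)) {M : V → G →L[ℝ] G}
    (hM : ContDiff ℝ ∞ M) (hinj : ∀ x, Function.Injective (M x)) :
    ∃ ε : ℝ, ε ^ 2 = 1 ∧ ∀ w : V × G → Lam (V × G), JJ b (pb (flm M) w) = ε * JJ b w := by
  refine exists_cv b (contDiff_flm hM) ?_ ?_ fun p => ?_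
  · rintro ⟨x, y⟩ ⟨x', y'⟩ h
    have h1 : x = x' := congrArg Prod.fst h
    subst h1
    have h2 : M x y = M x y' := congrArg Prod.snd h
    rw [hinj x h2]
  · rintro ⟨x, z⟩
    have h1 : Function.Surjective ((M x : G →L[ℝ] G) : G →ₗ[ℝ] G) :=
      (LinearMap.injective_iff_surjective (f := ((M x : G →L[ℝ] G) : G →ₗ[ℝ] G))).1 (hinj x)
    obtain ⟨y, hy⟩ := h1 z
    exact ⟨(x, y), Prod.ext rfl hy⟩
  · have h1 : HasFDerivAt M (fderiv ℝ M p.1) p.1 :=
      (hM.differentiable (by simp) p.1).hasFDerivAt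
    have h2 : HasFDerivAt (fun q : V × G => M q.1) (fderiv ℝ M p.1 ∘L
        ContinuousLinearMap.fst ℝ V G) p := h1.comp p hasFDerivAt_fst
    have h3 : HasFDerivAt (fun q : V × G => M q.1 q.2) _ p := h2.clm_apply hasFDerivAt_snd
    have h4 : HasFDerivAt (flm M) _ p := hasFDerivAt_fst.prodMk h3
    rw [h4.fderiv]
    intro h0
    have h5 := LinearMap.bot_lt_ker_of_det_eq_zero (f := (_ : (V × G) →ₗ[ℝ] (V × G))) h0
    obtain ⟨q, hq, hq0⟩ := (Submodule.ne_bot_iff _).1 h5.ne'
    rw [LinearMap.mem_ker] at hq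
    have h6 : q.1 = 0 := congrArg Prod.fst hq
    have h7 : M p.1 q.2 + (fderiv ℝ M p.1 q.1) p.2 = 0 := congrArg Prod.snd hq
    rw [h6, map_zero] at h7
    have h8 : M p.1 q.2 = M p.1 0 := by
      rw [map_zero]
      simpa using h7
    exact hq0 (Prod.ext h6 (hinj _ h8))

end Flm

end

end Vale.Agent.P231.S3B4c
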