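import Vale.Agent.P231.S3B4c.SIJ
import Vale.Agent.P231.S3B4c.Cv
import Vale.Agent.P231.XC.Pair
import Vale.Agent.P231.S3S.Xi
import Vale.Agent.P231.S3C.PX
import Vale.Agent.P231.H649.GS
import Vale.Agent.P231.S2II.Fun

/-!
# P231, stage 3, [S3-B] S3-CMP (4): the fibre integral over the spheres of `L` and the integral
over the bundle of negative directions
-/

set_option maxSynthPendingDepth 3
set_option linter.unusedSectionVars false
set_option linter.unusedVariables false

open Bundle Manifold Set Filter Module MeasureTheory Metric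
open scoped ContDiff Manifold Topology ENNReal

namespace Vale.Agent.P231.S3B4c

noncomputable section

open Vale.Agent.P234 Vale.Agent.P231 Vale.Agent.P231.Fm Vale.Agent.P231.W Vale.Agent.P231.WR
open Vale.Agent.P231.WF Vale.Agent.P231.H766 Vale.Agent.P231.S2N Vale.Agent.P231.S3S
open Vale.Agent.P231.S2II Vale.Agent.P231.TW Vale.Agent.P231.H584 Vale.Agent.P231.XC

/-! ### linear combinations -/

section Cmb

variable {ι : Type} [Fintype ι] {l : ℕ}

/-- the linear combination -/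
def cmbE (f : Fin l → EuclideanSpace ℝ ι) : Eul l →L[ℝ] EuclideanSpace ℝ ι :=
  ∑ i, (EuclideanSpace.proj (𝕜 := ℝ) i : Eul l →L[ℝ] ℝ).smulRight (f i)

theorem cmbE_apply (f : Fin l → EuclideanSpace ℝ ι) (y : Eul l) : cmbE f y = ∑ i, y i • f i := by
  simp only [cmbE, _root_.sum_apply]
  rfl

theorem contDiff_cmbE {V : Type*} [NormedAddCommGroup V] [NormedSpace ℝ V]
    {f : Fin l → V → EuclideanSpace ℝ ι} (hf : ∀ i, ContDiff ℝ ∞ (f i)) :
    ContDiff ℝ ∞ (fun x => cmbE fun i => f i x) := by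
  unfold cmbE
  refine ContDiff.sum fun i _ => ?_
  exact (ContinuousLinearMap.smulRightL ℝ (Eul l) (EuclideanSpace ℝ ι)
    (EuclideanSpace.proj (𝕜 := ℝ) i : Eul l →L[ℝ] ℝ)).contDiff.comp (hf i)

theorem cmbE_inj {f : Fin l → EuclideanSpace ℝ ι} (hf : LinearIndependent ℝ f) :
    Function.Injective (cmbE f) := by
  rw [injective_iff_map_eq_zero]
  intro y hy
  rw [cmbE_apply] at hy
  ext i
  exact Fintype.linearIndependent_iff.1 hf (fun i => y i) hy i

/-- the coefficients with respect to an orthonormal family -/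
def cofE (f : Fin l → EuclideanSpace ℝ ι) (w : EuclideanSpace ℝ ι) : Eul l :=
  WithLp.toLp 2 fun i => inner ℝ (f i) w

theorem cofE_apply (f : Fin l → EuclideanSpace ℝ ι) (w : EuclideanSpace ℝ ι) (i : Fin l) :
    cofE f w i = inner ℝ (f i) w := rfl

theorem cofE_cmbE {f : Fin l → EuclideanSpace ℝ ι} (hf : Orthonormal ℝ f) (y : Eul l) :
    cofE f (cmbE f y) = y := by
  ext i
  rw [cofE_apply, cmbE_apply, inner_sum]
  simp only [inner_smul_right, orthonormal_iff_ite.1 hf]
  simp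

end Cmb

variable {E : Type*} [NormedAddCommGroup E] [NormedSpace ℝ E]
  {M : Type*} [MetricSpace M] [ChartedSpace E M]
  [RiemannianBundle (fun x : M => TangentSpace 𝓘(ℝ, E) x)]
  {e : ∀ x : M, TangentSpace 𝓘(ℝ, E) x → M}
  [FiniteDimensional ℝ E] [IsManifold 𝓘(ℝ, E) ∞ M]
  [IsContMDiffRiemannianBundle 𝓘(ℝ, E) ∞ E (fun x : M => TangentSpace 𝓘(ℝ, E) x)]
  [CompactSpace M] [ConnectedSpace M] [IsRiemannianManifold 𝓘(ℝ, E) M]

variable {D : ℝ} {ι : Type} [Fintype ι] [DecidableEq ι]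

variable {F : Facts e} {hD : 0 < D} {hB : InjGE e D} {hdiam : ∀ p q : M, dist p q ≤ D}
  {l : ℕ} {X δ : ι → UT E M → E} {ε : ℝ}

/-! ### plots of the total space -/

/-- the complement of the open unit ball bundle -/
def XiOne (F : Facts e) (D : ℝ) (X δ : ι → UT E M → E) (ε : ℝ) : Set (Xi F D X δ ε) :=
  {p | 1 ≤ ‖p.a‖}

/-- forms of high degree vanish along the fibres -/
theorem val_fibre (h : Fam F hD hB hdiam l X δ ε) {N : ℕ} {ν : Form (dXi F D X δ ε)}
    (hν : Form.IsDeg N ν) (hN : l < N) {E' : Type} [NormedAddCommGroup E'] [NormedSpace ℝ E']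
    [FiniteDimensional ℝ E'] {u : E' → Xi F D X δ ε} {x : E'} (hu : (dXi F D X δ ε).At u x)
    {v₀ : UT E M} (hv : ∀ᶠ y in 𝓝 x, (u y).v = v₀) : ν.val u x = 0 := by
  set P := Pm F D X δ ε v₀ with hPd
  let R := LinearMap.range ((P : EuclideanSpace ℝ ι →L[ℝ] EuclideanSpace ℝ ι) :
    EuclideanSpace ℝ ι →ₗ[ℝ] EuclideanSpace ℝ ι)
  have hR : ∀ z : R, P (z : EuclideanSpace ℝ ι) = z := by
    rintro ⟨_, y, rfl⟩
    exact h.Pm_Pm v₀ y
  let Q : EuclideanSpace ℝ ι →L[ℝ] R := P.codRestrict R fun y => ⟨y, rfl⟩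
  let c : R → Xi F D X δ ε := fun z => ⟨v₀, z, hR z⟩
  let g : E' → R := fun y => Q (u y).a
  have hg : Sm g x := by
    have h1 : Sm (fun y => (u y).a) x := hu.2
    exact Sm.comp (f := fun a => Q a) (Sm.of_contDiff Q.contDiff _) h1
  have hc : (dXi F D X δ ε).At c (g x) :=
    ⟨H583.at_const v₀ _, Sm.of_contDiff (g := fun z : R => (z : EuclideanSpace ℝ ι)) R.subtypeL.contDiff _⟩
  refine val_eq_zero_of_finrank hν hc hg ?_ ?_
  · filter_upwards [hv] with y hy
    refine Xi.ext hy ?_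
    change (u y).a = P (u y).a
    rw [hPd, ← hy, (u y).pm]
  · rw [h.finrank_range v₀]
    exact hN

section Plot

variable {V : Type} [NormedAddCommGroup V] [NormedSpace ℝ V] [FiniteDimensional ℝ V]

/-- families of vectors in the negative spaces along a plot -/
structure Vec (F : Facts e) (D : ℝ) (X δ : ι → UT E M → E) (ε : ℝ) (G₁ : V → UT E M)
    (f : Fin l → V → EuclideanSpace ℝ ι) : Prop where
  plot : ∀ x, (dUT E M).At G₁ x
  sm : ∀ i, ContDiff ℝ ∞ (f i)
  pm : ∀ i x, Pm F D X δ ε (G₁ x) (f i x) = f i x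

variable {G₁ : V → UT E M} {f : Fin l → V → EuclideanSpace ℝ ι}

theorem Vec.pm_cmbE (h : Vec F D X δ ε G₁ f) (x : V) (y : Eul l) :
    Pm F D X δ ε (G₁ x) (cmbE (fun i => f i x) y) = cmbE (fun i => f i x) y := by
  rw [cmbE_apply, map_sum]
  refine Finset.sum_congr rfl fun i _ => ?_
  rw [map_smul, h.pm]

/-- the plot of the total space given by a family of vectors -/
def Vec.A (h : Vec F D X δ ε G₁ f) (p : V × Eul l) : Xi F D X δ ε :=
  ⟨G₁ p.1, cmbE (fun i => f i p.1) p.2, h.pm_cmbE p.1 p.2⟩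

@[simp] theorem Vec.A_v (h : Vec F D X δ ε G₁ f) (p : V × Eul l) : (h.A p).v = G₁ p.1 := rfl

@[simp] theorem Vec.A_a (h : Vec F D X δ ε G₁ f) (p : V × Eul l) :
    (h.A p).a = cmbE (fun i => f i p.1) p.2 := rfl

theorem Vec.contDiff_a (h : Vec F D X δ ε G₁ f) : ContDiff ℝ ∞ fun p : V × Eul l => (h.A p).a :=
  ((contDiff_cmbE h.sm).comp contDiff_fst).clm_apply contDiff_snd

theorem Vec.at_A (h : Vec F D X δ ε G₁ f) (p : V × Eul l) : (dXi F D X δ ε).At h.A p :=
  ⟨(dUT E M).comp (u := G₁) (g := Prod.fst) (h.plot p.1) (Sm.of_contDiff contDiff_fst p),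
    Sm.of_contDiff h.contDiff_a p⟩

/-- a positive multiple -/
theorem Vec.smul (h : Vec F D X δ ε G₁ f) (c : ℝ) : Vec F D X δ ε G₁ fun i x => c • f i x where
  plot := h.plot
  sm i := (h.sm i).const_smul c
  pm i x := by rw [map_smul, h.pm]

/-- comparison of two families of vectors -/
theorem exists_cv_vec [MeasurableSpace V] [BorelSpace V] (hF : Fam F hD hB hdiam l X δ ε)
    {f' : Fin l → V → EuclideanSpace ℝ ι} (h : Vec F D X δ ε G₁ f) (h' : Vec F D X δ ε G₁ f')
    (ho : ∀ x, Orthonormal ℝ fun i => f i x) (hi : ∀ x, LinearIndependent ℝ fun i => f' i x)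
    {N : ℕ} (b : Basis (Fin N) ℝ (V × Eul l)) :
    ∃ c : ℝ, c ^ 2 = 1 ∧ ∀ ν : Form (dXi F D X δ ε), JJ b (ν.val h'.A) = c * JJ b (ν.val h.A) := by
  -- the vectors of the negative space are combinations of the orthonormal family
  have hspan : ∀ x w, Pm F D X δ ε (G₁ x) w = w → cmbE (fun i => f i x) (cofE (fun i => f i x) w) =
      w := by
    intro x w hw
    let R := LinearMap.range ((Pm F D X δ ε (G₁ x) : EuclideanSpace ℝ ι →L[ℝ] EuclideanSpace ℝ ι) :
      EuclideanSpace ℝ ι →ₗ[ℝ] EuclideanSpace ℝ ι)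
    let S := LinearMap.range ((cmbE (fun i => f i x) : Eul l →L[ℝ] EuclideanSpace ℝ ι) :
      Eul l →ₗ[ℝ] EuclideanSpace ℝ ι)
    have h1 : S ≤ R := by
      rintro _ ⟨y, rfl⟩
      exact ⟨_, h.pm_cmbE x y⟩
    have h2 : finrank ℝ S = finrank ℝ R := by
      have h3 : finrank ℝ R = l := hF.finrank_range (G₁ x)
      rw [h3]
      have h4 := LinearMap.finrank_range_of_inj (f := ((cmbE (fun i => f i x) :
        Eul l →L[ℝ] EuclideanSpace ℝ ι) : Eul l →ₗ[ℝ] EuclideanSpace ℝ ι))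
        (cmbE_inj (ho x).linearIndependent)
      refine h4.trans ?_
      exact finrank_euclideanSpace_fin
    have h3 : S = R := Submodule.eq_of_le_of_finrank_eq h1 h2
    have h4 : w ∈ S := by
      rw [h3]
      exact ⟨w, hw⟩
    obtain ⟨y, rfl⟩ := h4
    change cmbE (fun i => f i x) (cofE (fun i => f i x) (cmbE (fun i => f i x) y)) = _
    rw [cofE_cmbE (ho x)]
    rfl
  -- the family of matrices
  let Ml : V → Eul l →ₗ[ℝ] Eul l := fun x =>
    { toFun := fun y => cofE (fun i => f i x) (cmbE (fun i => f' i x) y)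
      map_add' := fun y z => by
        ext i
        simp only [cofE_apply, map_add, inner_add_right, PiLp.add_apply]
      map_smul' := fun r y => by
        ext i
        simp only [cofE_apply, map_smul, inner_smul_right, PiLp.smul_apply, smul_eq_mul,
          RingHom.id_apply] }
  let Mf : V → Eul l →L[ℝ] Eul l := fun x => LinearMap.toContinuousLinearMap (Ml x)
  have hMf : ContDiff ℝ ∞ Mf := by
    rw [contDiff_clm_apply_iff]
    intro y
    rw [contDiff_euclidean]
    intro i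
    change ContDiff ℝ ∞ fun x => inner ℝ (f i x) (cmbE (fun i => f' i x) y)
    exact (h.sm i).inner ℝ ((contDiff_cmbE h'.sm).clm_apply contDiff_const)
  have hkey : ∀ x y, cmbE (fun i => f i x) (Mf x y) = cmbE (fun i => f' i x) y := fun x y =>
    hspan x _ (h'.pm_cmbE x y)
  have hinj : ∀ x, Function.Injective (Mf x) := fun x y z hyz => by
    refine cmbE_inj (hi x) ?_
    rw [← hkey, ← hkey, hyz]
  obtain ⟨c, hc, hcv⟩ := exists_cv_flm b hMf hinj
  refine ⟨c, hc, fun ν => ?_⟩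
  rw [← hcv]
  refine JJ_congr b fun p => ?_
  have h1 : h'.A = h.A ∘ flm Mf := by
    funext q
    refine Xi.ext rfl ?_
    exact (hkey q.1 q.2).symm
  rw [h1, ν.nat (u := h.A) (g := flm Mf) (x := p) (h.at_A _)
    (Sm.of_contDiff (contDiff_flm hMf) p)]
  rfl

end Plot

end

end Vale.Agent.P231.S3B4c
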