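import Vale.Agent.P231.S3B4c.Pol
import Vale.Agent.P231.S3B4c.Cv

/-!
# P231, stage 3, [S3-B] S3-CMP (7): change of the cut-off function
-/

set_option maxSynthPendingDepth 3
set_option linter.unusedSectionVars false
set_option linter.unusedVariables false

open Module MeasureTheory Set Metric Filter
open scoped ContDiff Topology

namespace Vale.Agent.P231.S3B4c

open Fm TW H584 S3B4

noncomputable section

variable {A W : Type*} [NormedAddCommGroup A] [NormedSpace ℝ A] [FiniteDimensional ℝ A]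
  [NormedAddCommGroup W] [NormedSpace ℝ W] [FiniteDimensional ℝ W]

/-- a cut-off function in the second factor: `c₀` near `0`, `c₁` outside the ball of radius `R` -/
structure CutW (c₀ c₁ R : ℝ) (Θ : A × W → ℝ) : Prop where
  smooth : ContDiff ℝ ∞ Θ
  zero : ∀ p : A × W, p.2 = 0 → ∀ᶠ q in 𝓝 p, Θ q = c₀
  out : ∀ p : A × W, R < ‖p.2‖ → Θ p = c₁

variable {c₀ c₁ R : ℝ} {Θ Θ' : A × W → ℝ}

theorem CutW.fderiv_zero (h : CutW c₀ c₁ R Θ) {p : A × W} (hp : p.2 = 0) :
    ∀ᶠ q in 𝓝 p, fderiv ℝ Θ q = 0 := by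
  filter_upwards [eventually_eventually_nhds.2 (h.zero p hp)] with q hq
  exact fderiv_of_eventually_const hq

theorem CutW.fderiv_out (h : CutW c₀ c₁ R Θ) {p : A × W} (hp : R < ‖p.2‖) : fderiv ℝ Θ p = 0 := by
  refine fderiv_of_eventually_const (c := c₁) ?_
  have h1 : Continuous fun p : A × W => ‖p.2‖ := by fun_prop
  filter_upwards [h1.continuousAt.eventually (lt_mem_nhds hp)] with q hq
  exact h.out q hq

theorem CutW.mono (h : CutW c₀ c₁ R Θ) {R' : ℝ} (hR : R ≤ R') : CutW c₀ c₁ R' Θ where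
  smooth := h.smooth
  zero := h.zero
  out p hp := h.out p (lt_of_le_of_lt hR hp)

/-- a form which is smooth outside the zero section, times the differential of a cut-off function -/
theorem CutW.smooth_mul (h : CutW c₀ c₁ R Θ) {m : A × W → Lam (A × W)}
    (hm : ∀ p : A × W, p.2 ≠ 0 → ContDiffAt ℝ ∞ m p) (p : A × W) :
    ContDiffAt ℝ ∞ (fun p => dx (fderiv ℝ Θ p) * m p) p := by
  by_cases hp : p.2 = 0
  · refine contDiffAt_const (c := (0 : Lam (A × W))).congr_of_eventuallyEq ?_
    filter_upwards [h.fderiv_zero hp] with q hq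
    rw [hq, map_zero, zero_mul]
  · exact (smAt_dx h.smooth p).mul (hm p hp)

variable [MeasurableSpace A] [BorelSpace A] [MeasurableSpace W] [BorelSpace W]

/-- **change of the cut-off function** -/
theorem JJ_cut {N k : ℕ} (hN : N = k + 1) (b : Basis (Fin N) ℝ (A × W))
    {m : A × W → Lam (A × W)} (hm : ∀ p : A × W, p.2 ≠ 0 → ContDiffAt ℝ ∞ m p)
    {K : Set A} (hK : IsCompact K) (h0 : ∀ p : A × W, p.2 ≠ 0 → p.1 ∉ K → m p = 0)
    (hd : ∀ p : A × W, p.2 ≠ 0 → extd m p = 0) {c₀' c₁' R' : ℝ}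
    (h : CutW c₀ c₁ R Θ) (h' : CutW c₀' c₁' R' Θ') :
    (c₁' - c₀') * JJ b (fun p => dx (fderiv ℝ Θ p) * m p) =
      (c₁ - c₀) * JJ b (fun p => dx (fderiv ℝ Θ' p) * m p) := by
  -- the difference of the normalised cut-off functions
  set g : A × W → ℝ := fun p => (c₁' - c₀') * (Θ p - c₀) - (c₁ - c₀) * (Θ' p - c₀') with hg
  have hgs : ContDiff ℝ ∞ g :=
    (contDiff_const.mul (h.smooth.sub contDiff_const)).sub
      (contDiff_const.mul (h'.smooth.sub contDiff_const))
  have hg0 : ∀ p : A × W, p.2 = 0 → ∀ᶠ q in 𝓝 p, g q = 0 := fun p hp => by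
    filter_upwards [h.zero p hp, h'.zero p hp] with q h1 h2
    rw [hg]
    beta_reduce
    rw [h1, h2]
    ring
  have hgo : ∀ p : A × W, max R R' < ‖p.2‖ → g p = 0 := fun p hp => by
    rw [hg]
    beta_reduce
    rw [h.out p (lt_of_le_of_lt (le_max_left _ _) hp),
      h'.out p (lt_of_le_of_lt (le_max_right _ _) hp)]
    ring
  have hfd : ∀ p, fderiv ℝ g p = (c₁' - c₀') • fderiv ℝ Θ p - (c₁ - c₀) • fderiv ℝ Θ' p := by
    intro p
    have d1 : DifferentiableAt ℝ Θ p := h.smooth.differentiable (by simp) p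
    have d2 : DifferentiableAt ℝ Θ' p := h'.smooth.differentiable (by simp) p
    have k1 : HasFDerivAt g ((c₁' - c₀') • fderiv ℝ Θ p - (c₁ - c₀) • fderiv ℝ Θ' p) p :=
      ((d1.hasFDerivAt.sub_const c₀).const_mul (c₁' - c₀')).sub
        ((d2.hasFDerivAt.sub_const c₀').const_mul (c₁ - c₀))
    exact k1.fderiv
  set C : Set (A × W) := K ×ˢ closedBall (0 : W) (max R R') with hC
  have hCc : IsCompact C := hK.prod (isCompact_closedBall _ _)
  have hout : ∀ p : A × W, p ∉ C → p.2 ≠ 0 → p.1 ∉ K ∨ max R R' < ‖p.2‖ := fun p hp _ => by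
    by_contra hcon
    push Not at hcon
    exact hp ⟨hcon.1, mem_closedBall_zero_iff.2 hcon.2⟩
  set w : A × W → Lam (A × W) := fun p => g p • m p with hw
  have hws : ∀ p, ContDiffAt ℝ ∞ w p := fun p => by
    by_cases hp : p.2 = 0
    · refine contDiffAt_const (c := (0 : Lam (A × W))).congr_of_eventuallyEq ?_
      filter_upwards [hg0 p hp] with q hq
      rw [hw]
      beta_reduce
      rw [hq, zero_smul]
    · exact hgs.contDiffAt.smul (hm p hp)
  have hw0 : ∀ p ∉ C, w p = 0 := fun p hp => by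
    rw [hw]
    beta_reduce
    by_cases hp2 : p.2 = 0
    · rw [(hg0 p hp2).self_of_nhds, zero_smul]
    rcases hout p hp hp2 with h1 | h1
    · rw [h0 p hp2 h1, smul_zero]
    · rw [hgo p h1, zero_smul]
  have he : ∀ p, (c₁' - c₀') • (dx (fderiv ℝ Θ p) * m p) -
      (c₁ - c₀) • (dx (fderiv ℝ Θ' p) * m p) = extd w p := fun p => by
    by_cases hp : p.2 = 0
    · have k1 : w =ᶠ[𝓝 p] fun _ => 0 := by
        filter_upwards [hg0 p hp] with q hq
        rw [hw]
        beta_reduce
        rw [hq, zero_smul]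
      rw [extd_congr k1, extd_const, (h.fderiv_zero hp).self_of_nhds,
        (h'.fderiv_zero hp).self_of_nhds, map_zero, zero_mul, smul_zero, smul_zero, sub_zero]
    · rw [hw, extd_smul (hgs.differentiable (by simp) p)
        ((hm p hp).differentiableAt (by simp)), hd p hp, smul_zero, add_zero, hfd, map_sub,
        map_smul, map_smul, sub_mul, smul_mul_assoc, smul_mul_assoc]
  have i1 : ∀ {c₀ c₁ R : ℝ} {Θ : A × W → ℝ} (c : ℝ), R ≤ max R R → CutW c₀ c₁ R Θ →
      Integrable (fun p => evalForm (c • (dx (fderiv ℝ Θ p) * m p)) b) b.addHaar := by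
    intro c₀ c₁ R Θ c _ h
    refine integrable_of b (K := K ×ˢ closedBall (0 : W) R)
      (fun p => (h.smooth_mul hm p).const_smul c) (hK.prod (isCompact_closedBall _ _))
      fun p hp => ?_
    by_cases hp2 : p.2 = 0
    · rw [(h.fderiv_zero hp2).self_of_nhds, map_zero, zero_mul, smul_zero]
    by_cases h1 : p.1 ∈ K
    · have h2 : R < ‖p.2‖ := by
        by_contra hcon
        push Not at hcon
        exact hp ⟨h1, mem_closedBall_zero_iff.2 hcon⟩
      rw [h.fderiv_out h2, map_zero, zero_mul, smul_zero]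
    · rw [h0 p hp2 h1, mul_zero, smul_zero]
  have h5 := JJ_sub b (i1 (c₁' - c₀') (le_max_left _ _) h) (i1 (c₁ - c₀) (le_max_left _ _) h')
  rw [JJ_congr b he, JJ_d hN b hws hCc hw0] at h5
  have h6 : ∀ (c : ℝ) (v : A × W → Lam (A × W)), JJ b (fun p => c • v p) = c * JJ b v := by
    intro c v
    unfold JJ
    rw [← integral_const_mul]
    refine integral_congr_ae (Eventually.of_forall fun x => ?_)
    exact (evalL b).map_smul c (v x)
  rw [h6, h6] at h5
  linarith

theorem cutW_chi {A W : Type} [NormedAddCommGroup A] [NormedSpace ℝ A] [FiniteDimensional ℝ A]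
    [NormedAddCommGroup W] [InnerProductSpace ℝ W] [FiniteDimensional ℝ W] :
    CutW 0 1 1 (Co.chi : A × W → ℝ) where
  smooth := contDiff_chi
  zero p hp := by
    have h1 : Continuous fun p : A × W => 2 * ‖p.2‖ ^ 2 := by fun_prop
    have h2 : 2 * ‖p.2‖ ^ 2 < 1 := by rw [hp]; simp
    filter_upwards [h1.continuousAt.eventually (gt_mem_nhds h2)] with q hq
    exact Co.chi_eq_zero (le_of_lt hq)
  out p hp := Co.chi_eq_one hp.le

end

end Vale.Agent.P231.S3B4c
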