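import Vale.Agent.P231.S3B4c.Main
import Vale.Agent.P231.S3B4c.Cut

/-!
# P231, stage 3, [S3-B] S3-CMP (8): real coordinates on the fibres and arbitrary cut-off functions
-/

set_option maxSynthPendingDepth 3
set_option linter.unusedSectionVars false
set_option linter.unusedVariables false

open Bundle Manifold Set Filter Module MeasureTheory Metric
open scoped ContDiff Manifold Topology ENNReal

namespace Vale.Agent.P231.S3B4c

noncomputable section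

open Vale.Agent.P234 Vale.Agent.P231 Vale.Agent.P231.Fm Vale.Agent.P231.W Vale.Agent.P231.WR
open Vale.Agent.P231.WF Vale.Agent.P231.H766 Vale.Agent.P231.S2N Vale.Agent.P231.S3S
open Vale.Agent.P231.S2II Vale.Agent.P231.TW Vale.Agent.P231.H584 Vale.Agent.P231.XC
open Vale.Agent.P231.S3C Vale.Agent.P231.S3B4

/-! ### the coordinates -/

/-- the real and imaginary parts, as a linear equivalence -/
def wE (l : ℕ) : (Eul l × Eul l) ≃ₗ[ℝ] Fl l where
  toFun p := rz l fun i => ⟨p.1 i, p.2 i⟩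
  invFun w := (WithLp.toLp 2 fun i => (cz l w i).re, WithLp.toLp 2 fun i => (cz l w i).im)
  left_inv p := by
    simp only [cz_rz]
  right_inv w := by
    have h : (fun i => (⟨(cz l w i).re, (cz l w i).im⟩ : ℂ)) = cz l w := funext fun i => rfl
    change rz l (fun i => (⟨(cz l w i).re, (cz l w i).im⟩ : ℂ)) = w
    rw [h, rz_cz]
  map_add' p q := by
    rw [← rz_cz (rz l (fun i => (⟨p.1 i, p.2 i⟩ : ℂ)) + rz l fun i => (⟨q.1 i, q.2 i⟩ : ℂ)),
      cz_add, cz_rz, cz_rz]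
    congr 1
  map_smul' c p := by
    rw [← rz_cz ((RingHom.id ℝ) c • rz l (fun i => (⟨p.1 i, p.2 i⟩ : ℂ))), RingHom.id_apply,
      cz_smul, cz_rz]
    congr 1
    funext i
    apply Complex.ext <;> simp

/-- the real and imaginary parts -/
def wL (l : ℕ) : (Eul l × Eul l) ≃L[ℝ] Fl l := (wE l).toContinuousLinearEquiv

theorem cz_wL (l : ℕ) (p : Eul l × Eul l) (i : Fin l) : cz l (wL l p) i = ⟨p.1 i, p.2 i⟩ := by
  change cz l (rz l fun i => ⟨p.1 i, p.2 i⟩) i = _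
  rw [cz_rz]

theorem norm_sq_wL (l : ℕ) (p : Eul l × Eul l) : ‖wL l p‖ ^ 2 = ‖p.1‖ ^ 2 + ‖p.2‖ ^ 2 := by
  rw [norm_sq_cz, EuclideanSpace.norm_sq_eq, EuclideanSpace.norm_sq_eq, ← Finset.sum_add_distrib]
  refine Finset.sum_congr rfl fun i _ => ?_
  rw [cz_wL, Complex.normSq_apply]
  simp only [Real.norm_eq_abs, sq_abs]
  ring

theorem norm_wL_le (l : ℕ) (p : Eul l × Eul l) : ‖wL l p‖ ≤ 2 * ‖p‖ := by
  have h1 := norm_sq_wL l p
  have h2 : ‖p.1‖ ≤ ‖p‖ := norm_fst_le p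
  have h3 : ‖p.2‖ ≤ ‖p‖ := norm_snd_le p
  have h4 : ‖wL l p‖ ^ 2 ≤ (2 * ‖p‖) ^ 2 := by
    nlinarith [norm_nonneg p.1, norm_nonneg p.2, norm_nonneg p]
  exact le_of_sq_le_sq h4 (by positivity)

section Ch

variable {V : Type*} [NormedAddCommGroup V] [NormedSpace ℝ V] [FiniteDimensional ℝ V]

/-- the change of coordinates `(x, (a, (y₁, y₂))) ↦ ((x, a), w)` -/
def chL (V : Type*) [NormedAddCommGroup V] [NormedSpace ℝ V] (l : ℕ) :
    (V × (Eul l × (Eul l × Eul l))) ≃L[ℝ] (V × Eul l) × Fl l :=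
  (ContinuousLinearEquiv.prodAssoc ℝ V (Eul l) (Eul l × Eul l)).symm.trans
    ((ContinuousLinearEquiv.refl ℝ (V × Eul l)).prodCongr (wL l))

theorem chL_apply {l : ℕ} (p : V × (Eul l × (Eul l × Eul l))) :
    chL V l p = ((p.1, p.2.1), wL l p.2.2) := rfl

/-- cut-off functions in the last two factors -/
structure Cut3 {l : ℕ} (c₀ c₁ R : ℝ) (Θ : V × (Eul l × (Eul l × Eul l)) → ℝ) : Prop where
  smooth : ContDiff ℝ ∞ Θ
  zero : ∀ p : V × (Eul l × (Eul l × Eul l)), p.2.2 = 0 → ∀ᶠ q in 𝓝 p, Θ q = c₀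
  out : ∀ p : V × (Eul l × (Eul l × Eul l)), R < ‖p.2.2‖ → Θ p = c₁

theorem Cut3.cutW {l : ℕ} {c₀ c₁ R : ℝ} {Θ : V × (Eul l × (Eul l × Eul l)) → ℝ}
    (h : Cut3 c₀ c₁ R Θ) : CutW c₀ c₁ (2 * R) (Θ ∘ (chL V l).symm) where
  smooth := h.smooth.comp (chL V l).symm.contDiff
  zero p hp := by
    have h1 : ((chL V l).symm p).2.2 = 0 := by
      change (wL l).symm p.2 = 0
      rw [hp, map_zero]
    exact (chL V l).symm.continuous.continuousAt.eventually (h.zero _ h1)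
  out p hp := by
    refine h.out _ ?_
    have h1 : p.2 = wL l ((chL V l).symm p).2.2 := by
      change p.2 = wL l ((wL l).symm p.2)
      rw [ContinuousLinearEquiv.apply_symm_apply]
    have h2 := norm_wL_le l ((chL V l).symm p).2.2
    rw [← h1] at h2
    linarith

end Ch

variable {E : Type*} [NormedAddCommGroup E] [NormedSpace ℝ E]
  {M : Type*} [MetricSpace M] [ChartedSpace E M]
  [RiemannianBundle (fun x : M => TangentSpace 𝓘(ℝ, E) x)]
  {e : ∀ x : M, TangentSpace 𝓘(ℝ, E) x → M}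
  [FiniteDimensional ℝ E] [IsManifold 𝓘(ℝ, E) ∞ M]
  [IsContMDiffRiemannianBundle 𝓘(ℝ, E) ∞ E (fun x : M => TangentSpace 𝓘(ℝ, E) x)]
  [CompactSpace M] [ConnectedSpace M] [IsRiemannianManifold 𝓘(ℝ, E) M]

variable {D : ℝ} {ι : Type} [Fintype ι] [DecidableEq ι]

variable {F : Facts e} {hD : 0 < D} {hB : InjGE e D} {hdiam : ∀ p q : M, dist p q ≤ D}
  {l : ℕ} {X δ : ι → UT E M → E} {ε : ℝ}

variable {V : Type} [NormedAddCommGroup V] [NormedSpace ℝ V] [FiniteDimensional ℝ V]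
  {G₁ : V → UT E M} {f : Fin l → V → EuclideanSpace ℝ ι}

/-- the differential of `μ` vanishes along `Phi` -/
theorem val_d_Phi [NeZero l] (hV : Vec F D X δ ε G₁ f)
    (ho : ∀ x, Orthonormal ℝ fun i => f i x) {N : ℕ} (hN : finrank ℝ V + l < N + 1)
    {μ : Form (XC.dX (dXi F D X δ ε) fun x : Xi F D X δ ε => pX F D X δ ε x.v)}
    (hμ : Form.IsDeg N μ) (hd : ∃ τ, μ.d = Form.pull XS.b map_b τ)
    {z : (V × Eul l) × Fl l} (hz : z.2 ≠ 0) : μ.d.val (Phi hV ho) z = 0 := by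
  obtain ⟨τ, hτ⟩ := hd
  have h1 : μ.d = Form.pull XS.b map_b (Form.part (N + 1) τ) := by
    rw [← Form.part_pull, ← hτ, hμ.d.part_eq]
  rw [h1, Form.pull_val _ _ (at_Phi hV ho hz)]
  refine val_eq_zero_of_finrank (Form.isDeg_part (N + 1) τ) (c := hV.A) (g := Prod.fst)
    (hV.at_A z.1) (Sm.of_contDiff contDiff_fst z) ?_ ?_
  · exact Eventually.of_forall fun y => Phi_b hV ho y
  · rw [finrank_prod, finrank_euclideanSpace_fin]
    exact hN

/-- the form vanishes along `Phi` outside the unit balls -/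
theorem val_Phi_out [NeZero l] (h : Fam F hD hB hdiam l X δ ε) (hV : Vec F D X δ ε G₁ f)
    (ho : ∀ x, Orthonormal ℝ fun i => f i x) {v₀ : UT E M} (hout : ∀ x, 1 < ‖x‖ → G₁ x = v₀)
    {N : ℕ} (hN : 3 * l < N)
    {μ : Form (XC.dX (dXi F D X δ ε) fun x : Xi F D X δ ε => pX F D X δ ε x.v)}
    (hμ : Form.IsDeg N μ) (hμz : Zer (XS.b ⁻¹' {p : Xi F D X δ ε | 1 ≤ ‖p.a‖}) μ)
    {z : (V × Eul l) × Fl l} (hz : z.2 ≠ 0)
    (hx : z.1 ∉ closedBall (0 : V) 1 ×ˢ closedBall (0 : Eul l) 1) :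
    μ.val (Phi hV ho) z = 0 := by
  by_cases hx1 : 1 < ‖z.1.1‖
  · exact val_Phi_far h hV ho hout hN hμ hz hx1
  · push Not at hx1
    have ha : 1 < ‖z.1.2‖ := by
      by_contra hcon
      push Not at hcon
      exact hx ⟨mem_closedBall_zero_iff.2 hx1, mem_closedBall_zero_iff.2 hcon⟩
    refine hμz.out (at_Phi hV ho hz) ?_
    have h1 : Continuous fun y : (V × Eul l) × Fl l => ‖y.1.2‖ := by fun_prop
    filter_upwards [h1.continuousAt.eventually (lt_mem_nhds ha)] with y hy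
    change 1 ≤ ‖(Phi hV ho y).b.a‖
    rw [Phi_b, Vec.A_a, norm_cmbE (ho _)]
    exact le_of_lt hy

/-- the plot `(x, (a, (y₁, y₂))) ↦ (G₁ x, f(x) a, f(x) (w / |w|))`, `w = y₁ + i y₂` -/
def Ph3 [NeZero l] (hV : Vec F D X δ ε G₁ f) (ho : ∀ x, Orthonormal ℝ fun i => f i x)
    (p : V × (Eul l × (Eul l × Eul l))) : XS fun x : Xi F D X δ ε => pX F D X δ ε x.v :=
  Phi hV ho (chL V l p)

theorem wL_ne {l : ℕ} {p : Eul l × Eul l} (hp : p ≠ 0) : wL l p ≠ 0 := fun h0 =>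
  hp ((wL l).map_eq_zero_iff.1 h0)

theorem at_Ph3 [NeZero l] (hV : Vec F D X δ ε G₁ f) (ho : ∀ x, Orthonormal ℝ fun i => f i x)
    {p : V × (Eul l × (Eul l × Eul l))} (hp : p.2.2 ≠ 0) :
    (XC.dX (dXi F D X δ ε) fun x : Xi F D X δ ε => pX F D X δ ε x.v).At (Ph3 hV ho) p :=
  Dif.comp _ (u := Phi hV ho) (g := chL V l) (x := p) (at_Phi hV ho (wL_ne hp))
    (Sm.of_contDiff (chL V l).contDiff p)

theorem Ph3_b [NeZero l] (hV : Vec F D X δ ε G₁ f) (ho : ∀ x, Orthonormal ℝ fun i => f i x)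
    (p : V × (Eul l × (Eul l × Eul l))) : (Ph3 hV ho p).b = hV.A (p.1, p.2.1) := Phi_b hV ho _

theorem Ph3_z [NeZero l] (hV : Vec F D X δ ε G₁ f) (ho : ∀ x, Orthonormal ℝ fun i => f i x)
    {p : V × (Eul l × (Eul l × Eul l))} (hp : p.2.2 ≠ 0) (i : ι) :
    (Ph3 hV ho p).z i = ⟨‖wL l p.2.2‖⁻¹ * cmbE (fun j => f j p.1) p.2.2.1 i,
      ‖wL l p.2.2‖⁻¹ * cmbE (fun j => f j p.1) p.2.2.2 i⟩ := by
  have h0 := wL_ne hp
  have h1 : ‖(‖wL l p.2.2‖⁻¹ : ℝ) • wL l p.2.2‖ = 1 := by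
    rw [norm_smul, norm_inv, norm_norm, inv_mul_cancel₀ (norm_ne_zero_iff.2 h0)]
  have h2 := congrFun (ev_z' (fr2 hV ho (p.1, p.2.1)) ((‖wL l p.2.2‖⁻¹ : ℝ) • wL l p.2.2) h1) i
  refine h2.trans ?_
  rw [cz_smul]
  have h3 : cmb (fr2 hV ho (p.1, p.2.1)).f ((‖wL l p.2.2‖⁻¹ : ℝ) • cz l (wL l p.2.2)) i =
      ∑ j, ((‖wL l p.2.2‖⁻¹ : ℝ) • cz l (wL l p.2.2)) j *
        (((f j p.1) i : ℝ) : ℂ) := rfl
  rw [h3]
  have hs : ∀ y : Eul l, cmbE (fun j => f j p.1) y i = ∑ j, y j * f j p.1 i := by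
    intro y
    rw [cmbE_apply]
    simp
  rw [hs, hs, Finset.mul_sum, Finset.mul_sum]
  apply Complex.ext
  · rw [Complex.re_sum]
    refine Finset.sum_congr rfl fun j _ => ?_
    rw [Pi.smul_apply, cz_wL]
    simp
    ring
  · rw [Complex.im_sum]
    refine Finset.sum_congr rfl fun j _ => ?_
    rw [Pi.smul_apply, cz_wL]
    simp
    ring

variable [MeasurableSpace V] [BorelSpace V]

/-- the integrand in the real coordinates -/
theorem pb_chL [NeZero l] (hV : Vec F D X δ ε G₁ f) (ho : ∀ x, Orthonormal ℝ fun i => f i x)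
    (μ : Form (XC.dX (dXi F D X δ ε) fun x : Xi F D X δ ε => pX F D X δ ε x.v))
    {c₀ c₁ R : ℝ} {Θ : V × (Eul l × (Eul l × Eul l)) → ℝ} (hΘ : Cut3 c₀ c₁ R Θ)
    (p : V × (Eul l × (Eul l × Eul l))) :
    pb (chL V l) (fun z => dx (fderiv ℝ (Θ ∘ (chL V l).symm) z) * μ.val (Phi hV ho) z) p =
      dx (fderiv ℝ Θ p) * μ.val (Ph3 hV ho) p := by
  rw [pb, map_mul]
  have h1 : Fm.pull (fderiv ℝ (chL V l) p) (dx (fderiv ℝ (Θ ∘ (chL V l).symm) (chL V l p))) =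
      dx (fderiv ℝ Θ p) := by
    rw [Fm.pull_dx]
    congr 1
    have h2 : Θ = (Θ ∘ (chL V l).symm) ∘ (chL V l) := by
      funext q
      simp
    conv_rhs => rw [h2]
    rw [fderiv_comp p ((hΘ.smooth.comp (chL V l).symm.contDiff).differentiable (by simp) _)
      (chL V l).differentiableAt]
  rw [h1]
  by_cases hp : p.2.2 = 0
  · have h2 : fderiv ℝ Θ p = 0 := fderiv_of_eventually_const (hΘ.zero p hp)
    rw [h2, map_zero, zero_mul, zero_mul]
  · congr 1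
    exact (μ.nat (u := Phi hV ho) (g := chL V l) (x := p) (at_Phi hV ho (wL_ne hp))
      (Sm.of_contDiff (chL V l).contDiff p)).symm

/-- **S3-CMP in real coordinates, with an arbitrary cut-off function** -/
theorem cmp3 [NeZero l] (hP : ∀ x y : M, dist x y = D → finrank ℝ (H775.Pl e D x y) = l + 1)
    (h : Fam F hD hB hdiam l X δ ε) {b : Form (dPr e D)} (hb : Orn F hD hB hdiam (l := l) b)
    (hl : Odd l) (hV : Vec F D X δ ε G₁ f) (ho : ∀ x, Orthonormal ℝ fun i => f i x)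
    {v₀ : UT E M} (hout : ∀ x, 1 < ‖x‖ → G₁ x = v₀) {n : ℕ} (hn : 1 < n)
    (bV : Basis (Fin n) ℝ V) {N : ℕ} (b' : Basis (Fin N) ℝ (V × (Eul l × (Eul l × Eul l)))) :
    ∃ c : ℝ, c ^ 2 = 1 ∧
      ∀ μ : Form (XC.dX (dXi F D X δ ε) fun x : Xi F D X δ ε => pX F D X δ ε x.v),
      Form.IsDeg (3 * l + n - 1) μ → (∃ τ, μ.d = Form.pull XS.b map_b τ) →
      Zer (XS.b ⁻¹' {p : Xi F D X δ ε | 1 ≤ ‖p.a‖}) μ →
      ∀ (c₀ c₁ R : ℝ) (Θ : V × (Eul l × (Eul l × Eul l)) → ℝ), Cut3 c₀ c₁ R Θ →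
      (c₁ - c₀) * JJ bV (fun x => (SL F hD hB hdiam hP hb hl
        (Form.K (Form.pull (pol hP h) (map_pol hP h)
        ((bun ((pj h).comp map_Xi_v)).SI (ob l) μ)))).val G₁ x) =
        c * JJ b' (fun p => dx (fderiv ℝ Θ p) * μ.val (Ph3 hV ho) p) := by
  obtain ⟨c, hc, hcμ⟩ := cmp hP h hb hl hV ho hout hn bV
  -- the bases have the same number of elements
  have hcard : N = 2 * l + (l + n) := by
    have h1 := finrank_eq_card_basis b'
    have h2 := (chL V l).toLinearEquiv.finrank_eq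
    have h3 := finrank_eq_card_basis bV
    rw [Fintype.card_fin] at h1 h3
    have h4 : finrank ℝ ((V × Eul l) × Fl l) = (n + l) + 2 * l := by
      rw [finrank_prod, finrank_prod, h3, finrank_euclideanSpace_fin, finrank_euclideanSpace_fin]
    omega
  subst hcard
  set b := pB (pB bV (bas l).toBasis) (ob l).toBasis with hb2
  obtain ⟨c', hc', hcv⟩ := exists_cv_equiv b' b (chL V l)
  have hfin : finrank ℝ V = n := by rw [finrank_eq_card_basis bV, Fintype.card_fin]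
  refine ⟨c * c', by rw [mul_pow, hc, hc', one_mul], fun μ hμ hμd hμz c₀ c₁ R Θ hΘ => ?_⟩
  rw [hcμ μ hμ hμd hμz]
  have hl0 : 0 < l := NeZero.pos l
  have k1 := JJ_cut (N := 2 * l + (l + n)) (k := 2 * l + (l + n) - 1) (by omega) b
    (m := μ.val (Phi hV ho))
    (fun p hp => μ.smooth (at_Phi hV ho hp))
    (K := closedBall (0 : V) 1 ×ˢ closedBall (0 : Eul l) 1)
    ((isCompact_closedBall _ _).prod (isCompact_closedBall _ _))
    (fun p hp hx => val_Phi_out h hV ho hout (by omega) hμ hμz hp hx)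
    (fun p hp => by
      rw [← Form.d_val _ (at_Phi hV ho hp)]
      exact val_d_Phi hV ho (by rw [hfin]; omega) hμ hμd hp)
    cutW_chi hΘ.cutW
  rw [sub_zero, one_mul] at k1
  have k2 : JJ b' (fun p => dx (fderiv ℝ Θ p) * μ.val (Ph3 hV ho) p) =
      c' * JJ b (fun z => dx (fderiv ℝ (Θ ∘ (chL V l).symm) z) * μ.val (Phi hV ho) z) := by
    rw [← hcv]
    exact JJ_congr b' fun p => (pb_chL hV ho μ hΘ p).symm
  rw [k2]
  have k3 : c * c' * (c' * JJ b (fun z => dx (fderiv ℝ (Θ ∘ (chL V l).symm) z) *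
      μ.val (Phi hV ho) z)) = c * (c' ^ 2) * JJ b (fun z =>
        dx (fderiv ℝ (Θ ∘ (chL V l).symm) z) * μ.val (Phi hV ho) z) := by ring
  rw [k3, hc', mul_one, ← k1]
  ring

end

end Vale.Agent.P231.S3B4c
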