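import Vale.Agent.P231.S3B4c.Geo

/-!
# P231, stage 3, [S3-B] S3-CMP (5): oriented frames of `L` along a plot
-/

set_option maxSynthPendingDepth 3
set_option linter.unusedSectionVars false
set_option linter.unusedVariables false

open Bundle Manifold Set Filter Module MeasureTheory Metric
open scoped ContDiff Manifold Topology ENNReal

namespace Vale.Agent.P231.S3B4c

noncomputable section

open Vale.Agent.P234 Vale.Agent.P231 Vale.Agent.P231.Fm Vale.Agent.P231.W Vale.Agent.P231.WR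
open Vale.Agent.P231.WF Vale.Agent.P231.H766 Vale.Agent.P231.S2N Vale.Agent.P231.S3S
open Vale.Agent.P231.S2II Vale.Agent.P231.TW Vale.Agent.P231.H584 Vale.Agent.P231.XC
open Vale.Agent.P231.H649 (tvs gsU isLF_gsU at_gsU)

variable {E : Type*} [NormedAddCommGroup E] [NormedSpace ℝ E]
  {M : Type*} [MetricSpace M] [ChartedSpace E M]
  [RiemannianBundle (fun x : M => TangentSpace 𝓘(ℝ, E) x)]
  {e : ∀ x : M, TangentSpace 𝓘(ℝ, E) x → M}
  [FiniteDimensional ℝ E] [IsManifold 𝓘(ℝ, E) ∞ M]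
  [IsContMDiffRiemannianBundle 𝓘(ℝ, E) ∞ E (fun x : M => TangentSpace 𝓘(ℝ, E) x)]
  [CompactSpace M] [ConnectedSpace M] [IsRiemannianManifold 𝓘(ℝ, E) M]

variable {D : ℝ} {ι : Type} [Fintype ι] [DecidableEq ι]

variable {F : Facts e} {hD : 0 < D} {hB : InjGE e D} {hdiam : ∀ p q : M, dist p q ≤ D}
  {l : ℕ} {X δ : ι → UT E M → E} {ε : ℝ}

variable {V : Type} [NormedAddCommGroup V] [NormedSpace ℝ V] [FiniteDimensional ℝ V]
  {G₁ : V → UT E M} {f : Fin l → V → EuclideanSpace ℝ ι}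

/-- the boundary values of a family of vectors -/
def bv (F : Facts e) (hD : 0 < D) (hB : InjGE e D) (hdiam : ∀ p q : M, dist p q ≤ D)
    (X : ι → UT E M → E) (G₁ : V → UT E M) (f : Fin l → V → EuclideanSpace ℝ ι) (i : Fin l)
    (x : V) : E := Th0 F hD hB hdiam (XX X (f i x)) (G₁ x)

theorem li_bv (hP : ∀ x y : M, dist x y = D → finrank ℝ (H775.Pl e D x y) = l + 1)
    (h : Fam F hD hB hdiam l X δ ε) (hV : Vec F D X δ ε G₁ f)
    (hi : ∀ x, LinearIndependent ℝ fun i => f i x) (x : V) :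
    LinearIndependent ℝ (tvs (G₁ x) fun j => bv F hD hB hdiam X G₁ f j x) := by
  rw [Fintype.linearIndependent_iff]
  intro g hg
  have h1 : Th0 F hD hB hdiam (XX X (∑ i, g i • f i x)) (G₁ x) = 0 := by
    have h2 := map_sum (ThL F hD hB hdiam X (G₁ x)) (fun i => g i • f i x) Finset.univ
    have h3 : ThL F hD hB hdiam X (G₁ x) (∑ i, g i • f i x) = 0 := by
      rw [h2]
      refine Subtype.ext ?_
      rw [AddSubmonoidClass.coe_finsetSum]
      refine Eq.trans (Finset.sum_congr rfl fun i _ => ?_) hg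
      rw [map_smul]
      rfl
    have h4 := congrArg (fun w : Lf e D (G₁ x) => ((w : TangentSpace 𝓘(ℝ, E) (foot (G₁ x))) : E)) h3
    exact h4
  have h2 : Pm F D X δ ε (G₁ x) (∑ i, g i • f i x) = ∑ i, g i • f i x := by
    rw [map_sum]
    exact Finset.sum_congr rfl fun i _ => by rw [map_smul, hV.pm]
  exact Fintype.linearIndependent_iff.1 (hi x) g (h.inj hP (G₁ x) h2 h1)

/-- **oriented frames of `L` along a plot** -/
theorem exists_fr [NeZero l]
    (hP : ∀ x y : M, dist x y = D → finrank ℝ (H775.Pl e D x y) = l + 1)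
    (h : Fam F hD hB hdiam l X δ ε) {b : Form (dPr e D)} (hb : Orn F hD hB hdiam (l := l) b)
    (hl : Odd l) (hV : Vec F D X δ ε G₁ f) (hi : ∀ x, LinearIndependent ℝ fun i => f i x) :
    ∃ fr : V → S2II.Fr e D l, (∀ x, (dFo F hD hB hdiam b).At fr x) ∧ ∀ x, (fr x).v = G₁ x := by
  have hmem : ∀ x i, tvs (G₁ x) (fun j => bv F hD hB hdiam X G₁ f j x) i ∈ Lf e D (G₁ x) :=
    fun x i => Th0_mem F hD hB hdiam _ (G₁ x)
  let fr : V → S2II.Fr e D l := fun x =>
    ⟨(G₁ x, gsU (G₁ x) fun j => bv F hD hB hdiam X G₁ f j x),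
      isLF_gsU F hD hB hdiam (hmem x) (li_bv hP h hV hi x)⟩
  have hfr : ∀ x, (dFr e D l).At fr x := fun x => by
    refine ⟨hV.plot x, fun i => ?_⟩
    exact at_gsU (u := G₁) (a := fun j s => bv F hD hB hdiam X G₁ f j s) (hV.plot x)
      (fun j => at_Th0_XX hP h (hV.plot x) (Sm.of_contDiff (hV.sm j) x)) (li_bv hP h hV hi x) i
  have hconst : ∀ x, kf F hD hB hdiam b (fr x) = kf F hD hB hdiam b (fr 0) := fun x => by
    have h1 : IsLocallyConstant fun x => kf F hD hB hdiam b (fr x) :=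
      (IsLocallyConstant.iff_eventually_eq _).2 fun x =>
        kf_eventually hb.deg hb.closed (hfr x)
    exact h1.apply_eq_of_preconnectedSpace x 0
  rcases lt_or_gt_of_ne (hb.ne (fr 0)) with h0 | h0
  · refine ⟨fun x => flip F hD hB hdiam (fr x), fun x => ⟨map_flip F hD hB hdiam (hfr x), ?_⟩,
      fun x => rfl⟩
    refine Eventually.of_forall fun y => ?_
    change 0 < kf F hD hB hdiam b (flip F hD hB hdiam (fr y))
    rw [kf_flip F hD hB hdiam hb.deg hl (hfr y), hconst y]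
    linarith
  · refine ⟨fr, fun x => ⟨hfr x, ?_⟩, fun x => rfl⟩
    refine Eventually.of_forall fun y => ?_
    change 0 < kf F hD hB hdiam b (fr y)
    rw [hconst y]
    exact h0

/-! ### coefficient vectors of the vectors of a frame -/

/-- the pair given by a vector of a frame -/
def prI (p : S2II.Fr e D l) (i : Fin l) : Pr e D := ⟨(p.v, p.W i), p.isLF.isL i⟩

theorem map_prI (i : Fin l) : (dFr e D l).Map (dPr e D) (fun p => prI p i) := fun h =>
  ⟨h.1, h.2 i⟩

/-- the coefficient vectors of a frame -/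
def mI (F : Facts e) (hD : 0 < D) (hB : InjGE e D) (hdiam : ∀ p q : M, dist p q ≤ D)
    (X δ : ι → UT E M → E) (ε : ℝ) (p : S2II.Fr e D l) (i : Fin l) : EuclideanSpace ℝ ι :=
  ab F hD hB hdiam X δ ε (prI p i)

theorem sm_ab (hP : ∀ x y : M, dist x y = D → finrank ℝ (H775.Pl e D x y) = l + 1)
    (h : Fam F hD hB hdiam l X δ ε) {E' : Type} [NormedAddCommGroup E'] [NormedSpace ℝ E']
    [FiniteDimensional ℝ E'] {u : E' → Pr e D} {x : E'} (hu : (dPr e D).At u x) :
    Sm (fun s => ab F hD hB hdiam X δ ε (u s)) x :=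
  h.sm_am hP (map_v hu) (at_w hu)

/-- the coefficient vector of a combination -/
theorem am_cb (p : S2II.Fr e D l) (y : Eul l) :
    am F hD hB hdiam X δ ε p.v (cb p y) = cmbE (mI F hD hB hdiam X δ ε p) y := by
  let A : E →ₗ[ℝ] EuclideanSpace ℝ ι :=
    { toFun := am F hD hB hdiam X δ ε p.v
      map_add' := am_add F hD hB hdiam X δ ε p.v
      map_smul' := am_smul F hD hB hdiam X δ ε p.v }
  change A (cb p y) = _
  rw [cb, map_sum, cmbE_apply]
  refine Finset.sum_congr rfl fun i _ => ?_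
  rw [map_smul]
  rfl

theorem cb_eq_zero {p : S2II.Fr e D l} {y : Eul l} (h : cb p y = 0) : y = 0 := by
  have h1 := ip_cb_cb p y y
  rw [h] at h1
  have h2 : ip (foot p.v) (0 : E) (0 : E) = 0 :=
    inner_zero_right (E := TangentSpace 𝓘(ℝ, E) (foot p.v)) (𝕜 := ℝ) _
  rw [h2] at h1
  exact (inner_self_eq_zero (𝕜 := ℝ)).1 h1.symm

theorem cmbE_mI_ne (hP : ∀ x y : M, dist x y = D → finrank ℝ (H775.Pl e D x y) = l + 1)
    (h : Fam F hD hB hdiam l X δ ε) (p : S2II.Fr e D l) {y : Eul l} (hy : y ≠ 0) :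
    cmbE (mI F hD hB hdiam X δ ε p) y ≠ 0 := by
  rw [← am_cb]
  exact h.am_ne_zero hP p.v (cb_mem p y) fun h0 => hy (cb_eq_zero h0)

/-- the normalised coefficient vector of a combination -/
theorem ah_cone [NeZero l] (p : S2II.Fr e D l) {y : Eul l} (hy : y ≠ 0) :
    ah F hD hB hdiam X δ ε (cone F hD hB hdiam (p, (‖y‖⁻¹ : ℝ) • y)) =
      ‖cmbE (mI F hD hB hdiam X δ ε p) y‖⁻¹ • cmbE (mI F hD hB hdiam X δ ε p) y := by
  have h1 : ab F hD hB hdiam X δ ε (cone F hD hB hdiam (p, (‖y‖⁻¹ : ℝ) • y)) =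
      ‖y‖⁻¹ • cmbE (mI F hD hB hdiam X δ ε p) y := by
    rw [ab, cone_v, cone_w F hD hB hdiam p (norm_nrm hy), vec'_mk]
    change am F hD hB hdiam X δ ε p.v (cb p ((‖y‖⁻¹ : ℝ) • y)) = _
    rw [am_cb, map_smul]
  rw [ah, h1]
  exact ah_smul_aux (inv_pos.2 (norm_pos_iff.2 hy)) _

/-- the coefficient vectors along a plot of frames -/
theorem vec_mI (hP : ∀ x y : M, dist x y = D → finrank ℝ (H775.Pl e D x y) = l + 1)
    (h : Fam F hD hB hdiam l X δ ε) {fr : V → S2II.Fr e D l} (hfr : ∀ x, (dFr e D l).At fr x)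
    (hG : ∀ x, (dUT E M).At G₁ x) (hv : ∀ x, (fr x).v = G₁ x) :
    Vec F D X δ ε G₁ fun i x => mI F hD hB hdiam X δ ε (fr x) i where
  plot := hG
  sm i := contDiff_iff_contDiffAt.2 fun x =>
    (sm_ab hP h (u := fun s => prI (fr s) i) (map_prI i (hfr x))).contDiffAt
  pm i x := by
    rw [← hv x]
    exact h.Pm_am hP (fr x).v ((fr x).isLF.isL i).mem_Lf

theorem li_mI (hP : ∀ x y : M, dist x y = D → finrank ℝ (H775.Pl e D x y) = l + 1)
    (h : Fam F hD hB hdiam l X δ ε) (p : S2II.Fr e D l) :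
    LinearIndependent ℝ (mI F hD hB hdiam X δ ε p) := by
  rw [Fintype.linearIndependent_iff]
  intro g hg
  by_contra hcon
  push Not at hcon
  obtain ⟨i, hi⟩ := hcon
  refine cmbE_mI_ne hP h p (y := WithLp.toLp 2 g) (fun h0 => hi ?_) ?_
  · have := congrFun (congrArg WithLp.ofLp h0) i
    exact this
  · rw [cmbE_apply]
    exact hg

end

end Vale.Agent.P231.S3B4c
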