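import Mathlib

/-!
# P231, stage 3, [S3-B] S3-CMP (8): orthonormal frames of a family of projections over a vector
space
-/

set_option linter.unusedSectionVars false

open Set Filter Module InnerProductSpace
open scoped ContDiff Topology

namespace Vale.Agent.P231.S3B4c

noncomputable section

section Gs

variable {V : Type*} [NormedAddCommGroup V] [NormedSpace ℝ V]
  {W : Type*} [NormedAddCommGroup W] [InnerProductSpace ℝ W]

/-- the Gram–Schmidt process is smooth -/
theorem contDiff_gramSchmidt {N : ℕ} {a : Fin N → V → W} (ha : ∀ i, ContDiff ℝ ∞ (a i))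
    (hli : ∀ x, LinearIndependent ℝ fun i => a i x) (n : Fin N) :
    ContDiff ℝ ∞ fun x => gramSchmidt ℝ (fun i => a i x) n := by
  induction n using WellFoundedLT.induction with
  | ind n ih =>
    have h1 : (fun x => gramSchmidt ℝ (fun i => a i x) n) = fun x => a n x - ∑ i ∈ Finset.Iio n,
        ((inner ℝ (gramSchmidt ℝ (fun i => a i x) i) (a n x) : ℝ) *
          (inner ℝ (gramSchmidt ℝ (fun i => a i x) i)
            (gramSchmidt ℝ (fun i => a i x) i) : ℝ)⁻¹) • gramSchmidt ℝ (fun i => a i x) i := by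
      funext x
      have h2 := gramSchmidt_def'' ℝ (fun i => a i x) n
      rw [eq_sub_iff_add_eq]
      refine Eq.trans ?_ h2.symm
      congr 1
      refine Finset.sum_congr rfl fun i _ => ?_
      rw [real_inner_self_eq_norm_sq, div_eq_mul_inv]
      rfl
    rw [h1]
    refine (ha n).sub (ContDiff.sum fun i hi => ?_)
    have h3 := ih i (Finset.mem_Iio.1 hi)
    refine ContDiff.smul (ContDiff.mul (h3.inner ℝ (ha n)) (ContDiff.inv (h3.inner ℝ h3) ?_)) h3
    intro x
    rw [real_inner_self_eq_norm_sq]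
    exact pow_ne_zero 2 (norm_ne_zero_iff.2 (gramSchmidt_ne_zero i (hli x)))

theorem contDiff_gramSchmidtNormed {N : ℕ} {a : Fin N → V → W} (ha : ∀ i, ContDiff ℝ ∞ (a i))
    (hli : ∀ x, LinearIndependent ℝ fun i => a i x) (n : Fin N) :
    ContDiff ℝ ∞ fun x => gramSchmidtNormed ℝ (fun i => a i x) n := by
  have h1 := contDiff_gramSchmidt ha hli n
  have h2 : (fun x => gramSchmidtNormed ℝ (fun i => a i x) n) =
      fun x => (‖gramSchmidt ℝ (fun i => a i x) n‖⁻¹ : ℝ) • gramSchmidt ℝ (fun i => a i x) n := by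
    funext x
    rfl
  rw [h2]
  refine ContDiff.smul (ContDiff.inv (h1.norm ℝ fun x => ?_) fun x => ?_) h1
  · exact gramSchmidt_ne_zero n (hli x)
  · exact norm_ne_zero_iff.2 (gramSchmidt_ne_zero n (hli x))

/-- an invariant subspace contains the result of the Gram–Schmidt process -/
theorem gramSchmidtNormed_fix {N : ℕ} {a : Fin N → W} {P : W →L[ℝ] W} (ha : ∀ i, P (a i) = a i)
    (n : Fin N) : P (gramSchmidtNormed ℝ a n) = gramSchmidtNormed ℝ a n := by
  have h1 : gramSchmidt ℝ a n ∈ Submodule.span ℝ (a '' Set.Iic n) := gramSchmidt_mem_span ℝ a le_rfl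
  have h2 : Submodule.span ℝ (a '' Set.Iic n) ≤ LinearMap.eqLocus (P : W →ₗ[ℝ] W) LinearMap.id := by
    rw [Submodule.span_le]
    rintro _ ⟨i, -, rfl⟩
    exact ha i
  have h3 : P (gramSchmidt ℝ a n) = gramSchmidt ℝ a n := h2 h1
  rw [gramSchmidtNormed]
  change P ((‖gramSchmidt ℝ a n‖⁻¹ : ℝ) • gramSchmidt ℝ a n) = (‖gramSchmidt ℝ a n‖⁻¹ : ℝ) • _
  rw [map_smul, h3]

end Gs

section Sg

variable {V : Type*} [NormedAddCommGroup V] [InnerProductSpace ℝ V]

/-- a smooth retraction to a ball, up to the points where the families are constant -/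
def sgm (x : V) : V :=
  ((1 - Real.smoothTransition (‖x‖ ^ 2 - 1)) +
    Real.smoothTransition (‖x‖ ^ 2 - 1) * (√2 * (√(1 + ‖x‖ ^ 2))⁻¹)) • x

theorem contDiff_sgm : ContDiff ℝ ∞ (sgm : V → V) := by
  have h1 : ContDiff ℝ ∞ fun x : V => Real.smoothTransition (‖x‖ ^ 2 - 1) :=
    Real.smoothTransition.contDiff.comp ((contDiff_norm_sq ℝ).sub contDiff_const)
  have h2 : ContDiff ℝ ∞ fun x : V => √(1 + ‖x‖ ^ 2) :=
    (contDiff_const.add (contDiff_norm_sq ℝ)).sqrt fun x => by positivity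
  refine ContDiff.smul (ContDiff.add (contDiff_const.sub h1) (h1.mul (contDiff_const.mul
    (h2.inv fun x => ?_)))) contDiff_id
  have : 0 < √(1 + ‖x‖ ^ 2) := Real.sqrt_pos.2 (by positivity)
  exact this.ne'

theorem sgm_of_le {x : V} (hx : ‖x‖ ≤ 1) : sgm x = x := by
  have h1 : Real.smoothTransition (‖x‖ ^ 2 - 1) = 0 :=
    Real.smoothTransition.zero_of_nonpos (by nlinarith [norm_nonneg x])
  rw [sgm, h1]
  simp

/-- the factor -/
theorem fac_bound {s : ℝ} (hs : 1 ≤ s) : 1 ≤ √2 * (√(1 + s ^ 2))⁻¹ * s ∧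
    √2 * (√(1 + s ^ 2))⁻¹ * s ≤ √2 := by
  have h1 : 0 < √(1 + s ^ 2) := Real.sqrt_pos.2 (by positivity)
  have h2 : √(1 + s ^ 2) ≤ √2 * s := by
    rw [← Real.sqrt_sq (by linarith : (0 : ℝ) ≤ s), ← Real.sqrt_mul (by norm_num), Real.sqrt_sq
      (by linarith : (0 : ℝ) ≤ s)]
    exact Real.sqrt_le_sqrt (by nlinarith)
  have h3 : s ≤ √(1 + s ^ 2) := by
    refine Real.le_sqrt_of_sq_le ?_
    linarith
  constructor
  · rw [mul_assoc, mul_comm (√(1 + s ^ 2))⁻¹, ← mul_assoc, ← div_eq_mul_inv, le_div_iff₀ h1, one_mul]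
    exact h2
  · rw [mul_assoc]
    have h4 : (√(1 + s ^ 2))⁻¹ * s ≤ 1 := by
      rw [mul_comm, ← div_eq_mul_inv, div_le_one h1]
      exact h3
    calc √2 * ((√(1 + s ^ 2))⁻¹ * s) ≤ √2 * 1 := by gcongr
      _ = √2 := mul_one _

theorem norm_sgm {x : V} : ‖sgm x‖ = ((1 - Real.smoothTransition (‖x‖ ^ 2 - 1)) * ‖x‖ +
    Real.smoothTransition (‖x‖ ^ 2 - 1) * (√2 * (√(1 + ‖x‖ ^ 2))⁻¹ * ‖x‖)) := by
  have h1 := Real.smoothTransition.nonneg (‖x‖ ^ 2 - 1)
  have h2 := Real.smoothTransition.le_one (‖x‖ ^ 2 - 1)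
  have h3 : 0 ≤ (1 - Real.smoothTransition (‖x‖ ^ 2 - 1)) +
      Real.smoothTransition (‖x‖ ^ 2 - 1) * (√2 * (√(1 + ‖x‖ ^ 2))⁻¹) := by
    have : 0 ≤ √2 * (√(1 + ‖x‖ ^ 2))⁻¹ := by positivity
    have := mul_nonneg h1 this
    linarith
  rw [sgm, norm_smul, Real.norm_eq_abs, abs_of_nonneg h3]
  ring

theorem one_le_sgm {x : V} (hx : 1 ≤ ‖x‖) : 1 ≤ ‖sgm x‖ := by
  have h1 := Real.smoothTransition.nonneg (‖x‖ ^ 2 - 1)
  have h2 := Real.smoothTransition.le_one (‖x‖ ^ 2 - 1)
  have h3 := (fac_bound hx).1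
  rw [norm_sgm]
  nlinarith

theorem sgm_le (x : V) : ‖sgm x‖ ≤ 2 := by
  have h0 : √2 ≤ (2 : ℝ) := by
    rw [show (2 : ℝ) = √(2 ^ 2) by rw [Real.sqrt_sq (by norm_num)]]
    exact Real.sqrt_le_sqrt (by norm_num)
  rcases le_or_gt ‖x‖ 1 with hx | hx
  · rw [sgm_of_le hx]
    linarith
  · have h1 := Real.smoothTransition.nonneg (‖x‖ ^ 2 - 1)
    have h2 := Real.smoothTransition.le_one (‖x‖ ^ 2 - 1)
    have h3 := (fac_bound hx.le).2
    rcases le_or_gt (‖x‖ ^ 2) 2 with h4 | h4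
    · have h5 : ‖x‖ ≤ 2 := by nlinarith
      rw [norm_sgm]
      nlinarith
    · have h5 : Real.smoothTransition (‖x‖ ^ 2 - 1) = 1 :=
        Real.smoothTransition.one_of_one_le (by linarith)
      rw [norm_sgm, h5]
      linarith

end Sg

section Chain

variable {V : Type*} [NormedAddCommGroup V] [InnerProductSpace ℝ V] [FiniteDimensional ℝ V]
  {W : Type*} [NormedAddCommGroup W] [InnerProductSpace ℝ W]

/-- the chain of projections -/
def chn (P : V → W →L[ℝ] W) (N : ℕ) : ℕ → V → W →L[ℝ] W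
  | 0 => fun _ => P 0
  | k + 1 => fun y => (P (((k + 1 : ℕ) / (N : ℝ)) • y)).comp (chn P N k y)

theorem contDiff_chn {P : V → W →L[ℝ] W} (hP : ContDiff ℝ ∞ P) (N k : ℕ) :
    ContDiff ℝ ∞ (chn P N k) := by
  induction k with
  | zero => exact contDiff_const
  | succ k ih => exact (hP.comp (contDiff_const.smul contDiff_id)).clm_comp ih

theorem chn_fix {P : V → W →L[ℝ] W} (hP : ∀ x w, P x (P x w) = P x w) (N k : ℕ) (y : V) (w : W) :
    P (((k : ℕ) / (N : ℝ)) • y) (chn P N k y w) = chn P N k y w := by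
  cases k with
  | zero =>
    simp only [Nat.cast_zero, zero_div, zero_smul]
    exact hP _ _
  | succ k => exact hP _ _

/-- **orthonormal frames of a family of projections which is constant outside of the unit ball** -/
theorem exists_orth {P : V → W →L[ℝ] W} (hP : ContDiff ℝ ∞ P) (hi : ∀ x w, P x (P x w) = P x w)
    {P₁ : W →L[ℝ] W} (hout : ∀ x, 1 ≤ ‖x‖ → P x = P₁) {l : ℕ} {g : Fin l → W}
    (hg : ∀ i, P 0 (g i) = g i) (hgi : LinearIndependent ℝ g) :
    ∃ f : Fin l → V → W, (∀ i, ContDiff ℝ ∞ (f i)) ∧ (∀ i x, P x (f i x) = f i x) ∧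
      ∀ x, Orthonormal ℝ fun i => f i x := by
  have hS : IsCompact (Metric.closedBall (0 : V) 2) := isCompact_closedBall _ _
  have hu := hS.uniformContinuousOn_of_continuous hP.continuous.continuousOn
  rw [Metric.uniformContinuousOn_iff] at hu
  obtain ⟨d, hd, hd'⟩ := hu 1 one_pos
  obtain ⟨N, hN⟩ := exists_nat_gt (2 / d)
  have hN0 : 0 < (N : ℝ) := lt_trans (by positivity) hN
  have h1N : 2 / (N : ℝ) < d := by
    rw [div_lt_iff₀ hN0]
    rw [div_lt_iff₀ hd] at hN
    linarith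
  have key : ∀ k ≤ N, ∀ y : V, ‖y‖ ≤ 2 → ∀ w, P 0 w = w → chn P N k y w = 0 → w = 0 := by
    intro k
    induction k with
    | zero =>
      intro _ y _ w hw h0
      rw [← hw]
      exact h0
    | succ k ih =>
      intro hk y hy w hw h0
      refine ih (by omega) y hy w hw ?_
      by_contra hcon
      set z := chn P N k y w with hz
      have hz1 : P (((k : ℕ) / (N : ℝ)) • y) z = z := chn_fix hi N k y w
      have hz2 : P (((k + 1 : ℕ) / (N : ℝ)) • y) z = 0 := h0
      have hmem : ∀ j : ℕ, j ≤ N → ((j : ℝ) / (N : ℝ)) • y ∈ Metric.closedBall (0 : V) 2 := by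
        intro j hj
        rw [mem_closedBall_zero_iff, norm_smul, Real.norm_eq_abs, abs_of_nonneg (by positivity)]
        have h1 : (j : ℝ) / N ≤ 1 := by
          rw [div_le_one hN0]
          exact_mod_cast hj
        calc (j : ℝ) / N * ‖y‖ ≤ 1 * 2 := by gcongr
          _ = 2 := one_mul _
      have hdist : dist (((k : ℕ) / (N : ℝ)) • y) (((k + 1 : ℕ) / (N : ℝ)) • y) < d := by
        rw [dist_eq_norm, ← sub_smul, norm_smul]
        have h3 : (k : ℝ) / N - ((k + 1 : ℕ) : ℝ) / N = -(1 / N) := by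
          push_cast
          ring
        rw [h3, norm_neg, Real.norm_eq_abs, abs_of_nonneg (by positivity)]
        calc 1 / (N : ℝ) * ‖y‖ ≤ 1 / N * 2 := by gcongr
          _ = 2 / N := by ring
          _ < d := h1N
      have h4 := hd' _ (hmem k (by omega)) _ (hmem (k + 1) hk) hdist
      rw [dist_eq_norm] at h4
      have h5 : ‖z‖ < ‖z‖ := by
        have hzpos : 0 < ‖z‖ := norm_pos_iff.2 hcon
        calc ‖z‖ = ‖(P (((k : ℕ) / (N : ℝ)) • y) - P (((k + 1 : ℕ) / (N : ℝ)) • y)) z‖ := by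
              rw [_root_.sub_apply, hz1, hz2, sub_zero]
          _ ≤ ‖P (((k : ℕ) / (N : ℝ)) • y) - P (((k + 1 : ℕ) / (N : ℝ)) • y)‖ * ‖z‖ :=
              ContinuousLinearMap.le_opNorm _ _
          _ < 1 * ‖z‖ := by gcongr
          _ = ‖z‖ := one_mul _
      exact lt_irrefl _ h5
  let A : V → W →L[ℝ] W := fun x => chn P N N (sgm x)
  have hA : ContDiff ℝ ∞ A := (contDiff_chn hP N N).comp contDiff_sgm
  have hA0 : ∀ x w, P 0 w = w → A x w = 0 → w = 0 := fun x w hw h0 =>
    key N le_rfl (sgm x) (sgm_le x) w hw h0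
  have hPs : ∀ x, P (sgm x) = P x := by
    intro x
    rcases le_or_gt ‖x‖ 1 with hx | hx
    · rw [sgm_of_le hx]
    · rw [hout x hx.le, hout _ (one_le_sgm hx.le)]
  have hAf : ∀ x w, P x (A x w) = A x w := by
    intro x w
    have h1 := chn_fix hi N N (sgm x) w
    rw [div_self hN0.ne', one_smul, hPs] at h1
    exact h1
  let a : Fin l → V → W := fun i x => A x (g i)
  have ha : ∀ i, ContDiff ℝ ∞ (a i) := fun i => hA.clm_apply contDiff_const
  have hli : ∀ x, LinearIndependent ℝ fun i => a i x := by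
    intro x
    rw [Fintype.linearIndependent_iff]
    intro c hc
    have h1 : A x (∑ i, c i • g i) = 0 := by
      rw [map_sum, ← hc]
      exact Finset.sum_congr rfl fun i _ => by rw [map_smul]
    have h2 : P 0 (∑ i, c i • g i) = ∑ i, c i • g i := by
      rw [map_sum]
      exact Finset.sum_congr rfl fun i _ => by rw [map_smul, hg]
    exact Fintype.linearIndependent_iff.1 hgi c (hA0 x _ h2 h1)
  refine ⟨fun i x => gramSchmidtNormed ℝ (fun j => a j x) i,
    fun i => contDiff_gramSchmidtNormed ha hli i, fun i x =>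
      gramSchmidtNormed_fix (fun j => hAf x (g j)) i, fun x => ?_⟩
  exact gramSchmidtNormed_orthonormal (hli x)

end Chain

end

end Vale.Agent.P231.S3B4c
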