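import Vale.Agent.P231.S3B4c.Chg
import Vale.Agent.P231.S3B4c.Gs
import Vale.Agent.P231.S3B4.Rad2
import Vale.Agent.P231.TH.S8

/-!
# P231, stage 3, [S3-B] S3-CMP (9): the functional of an eight-dimensional cycle and its values
-/

set_option maxSynthPendingDepth 3
set_option linter.unusedSectionVars false
set_option linter.unusedVariables false

open Bundle Manifold Set Filter Module MeasureTheory Metric
open scoped ContDiff Manifold Topology ENNReal Real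

namespace Vale.Agent.P231.S3B4c

noncomputable section

open Vale.Agent.P234 Vale.Agent.P231 Vale.Agent.P231.Fm Vale.Agent.P231.W Vale.Agent.P231.WR
open Vale.Agent.P231.WF Vale.Agent.P231.H766 Vale.Agent.P231.S2N Vale.Agent.P231.S3S
open Vale.Agent.P231.S2II Vale.Agent.P231.TW Vale.Agent.P231.H584 Vale.Agent.P231.XC
open Vale.Agent.P231.S3C
open Vale.Agent.P231.S3B4 (SmN RC Th contDiff_Th Th_near_one)

variable {E : Type*} [NormedAddCommGroup E] [NormedSpace ℝ E]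
  {M : Type*} [MetricSpace M] [ChartedSpace E M]
  [RiemannianBundle (fun x : M => TangentSpace 𝓘(ℝ, E) x)]
  {e : ∀ x : M, TangentSpace 𝓘(ℝ, E) x → M}
  [FiniteDimensional ℝ E] [IsManifold 𝓘(ℝ, E) ∞ M]
  [IsContMDiffRiemannianBundle 𝓘(ℝ, E) ∞ E (fun x : M => TangentSpace 𝓘(ℝ, E) x)]
  [CompactSpace M] [ConnectedSpace M] [IsRiemannianManifold 𝓘(ℝ, E) M]

variable {D : ℝ} {ι : Type} [Fintype ι] [DecidableEq ι]

section Vc

variable {F : Facts e} {hD : 0 < D} {hB : InjGE e D} {hdiam : ∀ p q : M, dist p q ≤ D}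
  {l : ℕ} {X δ : ι → UT E M → E} {ε : ℝ}

/-- **orthonormal frames of the negative spaces along a plot** -/
theorem exists_vec (h : Fam F hD hB hdiam l X δ ε) {V : Type} [NormedAddCommGroup V]
    [InnerProductSpace ℝ V] [FiniteDimensional ℝ V] {G₁ : V → UT E M}
    (hp : ∀ x, (dUT E M).At G₁ x) {v₀ : UT E M} (hout : ∀ x, 1 ≤ ‖x‖ → G₁ x = v₀) :
    ∃ f : Fin l → V → EuclideanSpace ℝ ι, Vec F D X δ ε G₁ f ∧
      ∀ x, Orthonormal ℝ fun i => f i x := by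
  let P : V → EuclideanSpace ℝ ι →L[ℝ] EuclideanSpace ℝ ι := fun x => Pm F D X δ ε (G₁ x)
  have hP : ContDiff ℝ ∞ P :=
    contDiff_iff_contDiffAt.2 fun x => (h.sm_Pm (hp x)).self_of_nhds
  let R := LinearMap.range ((P 0 : EuclideanSpace ℝ ι →L[ℝ] EuclideanSpace ℝ ι) :
    EuclideanSpace ℝ ι →ₗ[ℝ] EuclideanSpace ℝ ι)
  have hR : finrank ℝ R = l := h.finrank_range (G₁ 0)
  let g : Basis (Fin l) ℝ R := finBasisOfFinrankEq ℝ R hR
  have hg : ∀ i, P 0 (g i : EuclideanSpace ℝ ι) = g i := by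
    intro i
    obtain ⟨y, hy⟩ := (g i).2
    rw [← hy]
    exact h.Pm_Pm (G₁ 0) y
  have hgi : LinearIndependent ℝ fun i => (g i : EuclideanSpace ℝ ι) :=
    g.linearIndependent.map' R.subtype (Submodule.ker_subtype R)
  obtain ⟨f, h1, h2, h3⟩ := exists_orth hP (fun x w => h.Pm_Pm (G₁ x) w)
    (P₁ := Pm F D X δ ε v₀) (fun x hx => by
      change Pm F D X δ ε (G₁ x) = _
      rw [hout x hx]) hg hgi
  exact ⟨f, ⟨hp, h1, h2⟩, h3⟩

end Vc

/-! ### the box of the sphere of a line -/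

section Box

open Vale.Agent.P231.CoC (Em vp norm_vp exists_FrS)
open Vale.Agent.P231.TH Vale.Agent.P231.WE Vale.Agent.P231.FE Vale.Agent.P231.H775

variable (F : Facts e) (hD : 0 < D) (hB : InjGE e D)
    (hdiam : ∀ p q : M, dist p q ≤ D) {p : M} {n : ℕ}
    (hl : ∀ x y : M, dist x y = D → finrank ℝ (H775.Pl e D x y) = 2 * n + 2)
  {Pi : TangentSpace 𝓘(ℝ, E) p → TangentSpace 𝓘(ℝ, E) p →L[ℝ] TangentSpace 𝓘(ℝ, E) p}
  {o : TangentSpace 𝓘(ℝ, E) p → Fm.Lam (TangentSpace 𝓘(ℝ, E) p)}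
  {ρ : TangentSpace 𝓘(ℝ, E) p → ℝ} {r₀ : ℝ}
  (hJ : LineP e D p n Pi o) (hρ : Rho e D p ρ r₀) (a : ℝ)

include hD hB hdiam hρ in
/-- **the cycle of dimension `2 n + 2`** -/
theorem exists_cyc (hN : 2 * n + 2 < finrank ℝ E) :
    ∃ (G₁ : Em n → UT E M) (v₁ : UT E M) (L : Form (dUT E M) →ₗ[ℝ] ℝ),
      (∀ x, (dUT E M).At G₁ x) ∧ (∀ x, 1 ≤ ‖x‖ → G₁ x = v₁) ∧ foot (G₁ 0) = p ∧
      (∀ w : Form (dUT E M), L w.d = 0) ∧
      L (Form.pull foot map_foot (FF F hD hB hdiam hl hJ hρ a)) ^ 2 = FE.kap n a ^ 2 ∧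
      ∀ w : Form (dUT E M), Form.IsDeg (2 * n + 2) w →
        L w = JJ (CoC.bE n).toBasis (fun x => w.val G₁ x) := by
  obtain ⟨K, ⟨P⟩⟩ := X3.exists_pf (E := E) (M := M)
  obtain ⟨v₀, hv₀⟩ : ∃ v : UT E M, foot v = p := by
    obtain ⟨u, hu⟩ : ∃ u : TangentSpace 𝓘(ℝ, E) p, ‖u‖ = 1 := by
      have : Nontrivial (TangentSpace 𝓘(ℝ, E) p) := by
        have : Nontrivial E := nontrivial_of_finrank_pos (R := ℝ) (by omega)
        exact this
      exact exists_norm_eq _ zero_le_one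
    exact ⟨W.mk (E := E) p u hu, rfl⟩
  have hv1 : ‖vp p v₀‖ = 1 := norm_vp hv₀
  obtain ⟨L, hL⟩ := exists_FrS hJ.os hv1
  obtain ⟨c, hc⟩ := exists_fieldS (D := D) (L := L) F P hN
  refine ⟨zS e D L P c v₀, nz (qS e D L) (se P c (qS e D L)) v₀, (S8 F hJ hL P hc v₀).L,
    fun x => at_zS F P hc v₀ x, fun x hx => zS_out hJ hL P v₀ hx, ?_,
    S8_L_d F hJ hL P hc v₀, S8_sq F hD hB hdiam hl hJ hρ a hL P hc v₀, fun w hw => ?_⟩
  · rw [foot_zS P hc v₀ 0, cS]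
    have h1 : TH.rho (0 : Em n) = 0 := by rw [TH.rho, Fm.rad, smul_zero, smul_zero]
    rw [h1, map_zero, smul_zero]
    exact exp_zero_eq F.isExp p
  · rw [Bt.L_int]
    change ∫ x in cube n, evalForm (w.val (zS e D L P c v₀) x) (CoC.bE n).toBasis
      ∂(CoC.bE n).toBasis.addHaar = _
    rw [JJ]
    refine setIntegral_eq_integral_of_forall_compl_eq_zero fun x hx => ?_
    have hx1 : x ∉ closedBall (0 : Em n) 1 := fun h => hx (ball_subset_cube n h)
    have h2 : w.val (zS e D L P c v₀) x = 0 :=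
      val_const (k := 2 * n + 1) hw (at_zS F P hc v₀ x) (S8_const F hJ hL P hc v₀ hx1)
    rw [h2, Q.evalForm_zero]

end Box

/-! ### the values of the functional -/

section Val

open Vale.Agent.P231.CoC (Em)
open Vale.Agent.P231.S3L (Van)

variable {F : Facts e} {hD : 0 < D} {hB : InjGE e D} {hdiam : ∀ p q : M, dist p q ≤ D}
  {l : ℕ} {X δ : ι → UT E M → E} {ε : ℝ}

/-- the radial cut-off functions -/
theorem cut3_Th {V : Type} [NormedAddCommGroup V] [NormedSpace ℝ V] [FiniteDimensional ℝ V]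
    {nw : Eul l × Eul l → ℝ} {θ : ℝ → ℝ} {r r' : ℝ} (hn : SmN nw) (hθ : RC θ r r') :
    ∃ R, Cut3 (V := V) (l := l) 1 0 R (Th θ nw) := by
  obtain ⟨R, hR⟩ := (hn.cpt r').isBounded.exists_norm_le
  refine ⟨R, contDiff_Th hn hθ, fun p hp => Th_near_one hn hθ (by
    rw [hp, hn.zero]
    exact hθ.pos), fun p hp => ?_⟩
  have h1 : r' < nw p.2.2 := by
    by_contra hcon
    push Not at hcon
    exact absurd (hR _ hcon) (not_le.2 hp)
  exact hθ.zero _ h1.le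

end Val

end

end Vale.Agent.P231.S3B4c
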