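import Vale.Agent.P231.S3B4.Stk
import Vale.Agent.P231.H584.Ops
import Vale.Agent.P231.Co.Sph

/-!
# P231, stage 3, [S3-B] S3-CMP (1): polar coordinates for closed forms of top degree

`A : V × G → X` is a plot, `ν` a closed form of degree `dim V + dim G` on `X`, which vanishes along
`A` outside a compact set. The integral of `ν` along `A` is the integral of `dχ ∧ K ν` along the
cone of `A`.
-/

set_option maxSynthPendingDepth 3
set_option linter.unusedSectionVars false
set_option linter.unusedVariables false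

open Module MeasureTheory Set Metric Filter
open scoped ContDiff Topology

namespace Vale.Agent.P231.S3B4c

open Fm TW H584 S3B4

noncomputable section

/-! ### forms along plots which factor -/

section Rank

variable {X : Type*} {D : Dif X}

/-- a form of degree `N` vanishes along plots of rank less than `N` -/
theorem val_eq_zero_of_rk {N : ℕ} {ν : Form D} (hν : Form.IsDeg N ν) {E E' : Type}
    [NormedAddCommGroup E] [NormedSpace ℝ E] [FiniteDimensional ℝ E] [NormedAddCommGroup E']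
    [NormedSpace ℝ E'] [FiniteDimensional ℝ E'] {u : E → X} {c : E' → X} {g : E → E'} {x : E}
    (hc : D.At c (g x)) (hg : Sm g x) (hu : u =ᶠ[𝓝 x] c ∘ g) (hr : rk (fderiv ℝ g x) < N) :
    ν.val u x = 0 := by
  have h1 : D.At (c ∘ g) x := D.comp hc hg
  have h2 : D.At u x := D.congr h1 hu.symm
  rw [ν.congr h2 hu, ν.nat hc hg, ← hν.part_eq, Form.part_val]
  have h3 := prt_pull_eq_zero hr (ν.val c (g x))
  rwa [WA.prt_pull] at h3

theorem val_eq_zero_of_finrank {N : ℕ} {ν : Form D} (hν : Form.IsDeg N ν) {E E' : Type}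
    [NormedAddCommGroup E] [NormedSpace ℝ E] [FiniteDimensional ℝ E] [NormedAddCommGroup E']
    [NormedSpace ℝ E'] [FiniteDimensional ℝ E'] {u : E → X} {c : E' → X} {g : E → E'} {x : E}
    (hc : D.At c (g x)) (hg : Sm g x) (hu : u =ᶠ[𝓝 x] c ∘ g) (hr : finrank ℝ E' < N) :
    ν.val u x = 0 :=
  val_eq_zero_of_rk hν hc hg hu ((rk_le' _).trans_lt hr)

end Rank

/-! ### the cut-off function -/

section Chi

variable {V G : Type} [NormedAddCommGroup V] [NormedSpace ℝ V] [FiniteDimensional ℝ V]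
  [NormedAddCommGroup G] [InnerProductSpace ℝ G] [FiniteDimensional ℝ G]

theorem contDiff_chi : ContDiff ℝ ∞ (Co.chi : V × G → ℝ) :=
  Real.smoothTransition.contDiff.comp
    ((contDiff_const.mul ((contDiff_norm_sq ℝ).comp contDiff_snd)).sub contDiff_const)

theorem fderiv_chi_in {p : V × G} (h : 2 * ‖p.2‖ ^ 2 < 1) : fderiv ℝ (Co.chi : V × G → ℝ) p = 0 := by
  refine fderiv_of_eventually_const (c := 0) ?_
  have h1 : Continuous fun p : V × G => 2 * ‖p.2‖ ^ 2 := by fun_prop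
  filter_upwards [h1.continuousAt.eventually (gt_mem_nhds h)] with q hq
  exact Co.chi_eq_zero (le_of_lt hq)

theorem fderiv_chi_out {p : V × G} (h : 1 < ‖p.2‖) : fderiv ℝ (Co.chi : V × G → ℝ) p = 0 := by
  refine fderiv_of_eventually_const (c := 1) ?_
  have h1 : Continuous fun p : V × G => ‖p.2‖ := by fun_prop
  filter_upwards [h1.continuousAt.eventually (lt_mem_nhds h)] with q hq
  exact Co.chi_eq_one (le_of_lt hq)

end Chi

variable {X : Type*} {D : Dif X}
variable {V G : Type} [NormedAddCommGroup V] [NormedSpace ℝ V] [FiniteDimensional ℝ V]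
  [MeasurableSpace V] [BorelSpace V]
  [NormedAddCommGroup G] [InnerProductSpace ℝ G] [FiniteDimensional ℝ G]
  [MeasurableSpace G] [BorelSpace G]

/-- the cone of a plot -/
def cn (A : V × G → X) (q : (V × G) × ℝ) : X := A (q.1.1, q.2 • q.1.2)

/-- the contraction of the base -/
def cg (q : (V × G) × ℝ) : V × G := (q.1.1, q.2 • q.1.2)

theorem contDiff_cg : ContDiff ℝ ∞ (cg : (V × G) × ℝ → V × G) := by
  unfold cg
  fun_prop

theorem at_cn {A : V × G → X} (hA : ∀ p, D.At A p) (q : (V × G) × ℝ) : D.At (cn A) q :=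
  D.comp (u := A) (g := cg) (hA _) (Sm.of_contDiff contDiff_cg q)

theorem contDiff_val {A : V × G → X} (hA : ∀ p, D.At A p) (ν : Form D) :
    ContDiff ℝ ∞ (ν.val A) := contDiff_iff_contDiffAt.2 fun p => ν.smooth (hA p)

theorem at0_cn_one {A : V × G → X} (hA : ∀ p, D.At A p) (ν : Form D) (p : V × G) :
    at0 (ν.val (cn A) (p, 1)) = ν.val A p := by
  have h1 := ν.nat (u := cn A) (g := fun q : V × G => (q, (1 : ℝ))) (x := p) (at_cn hA _)
    (Sm.of_contDiff (contDiff_id.prodMk contDiff_const) p)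
  have h2 : fderiv ℝ (fun q : V × G => (q, (1 : ℝ))) p = ContinuousLinearMap.inl ℝ (V × G) ℝ :=
    (hasFDerivAt_prodMk_left p (1 : ℝ)).fderiv
  rw [h2] at h1
  rw [at0_apply, ← h1]
  congr 1
  funext q
  change A (q.1, (1 : ℝ) • q.2) = A q
  rw [one_smul]

theorem at0_cn_zero {N : ℕ} {ν : Form D} (hν : Form.IsDeg N ν) (hN : finrank ℝ V < N)
    {A : V × G → X} (hA : ∀ p, D.At A p) (p : V × G) : at0 (ν.val (cn A) (p, 0)) = 0 := by
  have h1 := ν.nat (u := cn A) (g := fun q : V × G => (q, (0 : ℝ))) (x := p) (at_cn hA _)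
    (Sm.of_contDiff (contDiff_id.prodMk contDiff_const) p)
  have h2 : fderiv ℝ (fun q : V × G => (q, (0 : ℝ))) p = ContinuousLinearMap.inl ℝ (V × G) ℝ :=
    (hasFDerivAt_prodMk_left p (0 : ℝ)).fderiv
  rw [h2] at h1
  rw [at0_apply, ← h1]
  refine val_eq_zero_of_finrank hν (E' := V) (c := fun v => A (v, 0)) (g := Prod.fst) ?_
    (Sm.of_contDiff contDiff_fst p) ?_ hN
  · exact D.comp (u := A) (g := fun v : V => (v, (0 : G))) (hA _)
      (Sm.of_contDiff (contDiff_id.prodMk contDiff_const) _)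
  · refine Eventually.of_forall fun q => ?_
    change A (q.1, (0 : ℝ) • q.2) = A (q.1, 0)
    rw [zero_smul]

theorem extd_kop_cn {N : ℕ} {ν : Form D} (hd : ν.d = 0) (hν : Form.IsDeg N ν)
    (hN : finrank ℝ V < N) {A : V × G → X} (hA : ∀ p, D.At A p) (p : V × G) :
    extd (kop (ν.val (cn A))) p = ν.val A p := by
  have hs : ContDiff ℝ ∞ (ν.val (cn A)) :=
    contDiff_iff_contDiffAt.2 fun q => ν.smooth (at_cn hA q)
  have h1 := kop_homotopy isOpen_univ (w := ν.val (cn A)) (hs.of_le (by simp)).contDiffOn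
    (mem_univ p)
  have h2 : ∀ q, extd (ν.val (cn A)) q = 0 := fun q => by
    rw [← Form.d_val _ (at_cn hA q), hd, Form.zero_val]
  have h3 : kop (extd (ν.val (cn A))) p = 0 := by
    unfold kop
    simp only [h2, map_zero]
    simp
  rw [at0_cn_one hA, at0_cn_zero hν hN hA, sub_zero, h3, zero_add] at h1
  exact h1.symm

/-- **polar coordinates, cone version** -/
theorem polar_cn {N k : ℕ} (hNk : N = k + 1) (b : Basis (Fin N) ℝ (V × G)) {ν : Form D}
    (hd : ν.d = 0) (hν : Form.IsDeg N ν) (hN : finrank ℝ V < N) {A : V × G → X}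
    (hA : ∀ p, D.At A p) (h1 : ∀ p : V × G, 1 ≤ 2 * ‖p.2‖ ^ 2 → ν.val A p = 0)
    (h2 : ∀ p : V × G, 1 < ‖p.1‖ → ∀ t, ν.val (cn A) (p, t) = 0) :
    JJ b (ν.val A) = JJ b (fun p => dx (fderiv ℝ Co.chi p) * kop (ν.val (cn A)) p) := by
  set κ : V × G → Lam (V × G) := kop (ν.val (cn A)) with hκ
  have hs : ContDiff ℝ ∞ (ν.val (cn A)) :=
    contDiff_iff_contDiffAt.2 fun q => ν.smooth (at_cn hA q)
  have hκs : ∀ p, ContDiffAt ℝ ∞ κ p := fun p =>
    (contDiffOn_kop isOpen_univ (n := ⊤) (w := ν.val (cn A)) hs.contDiffOn).contDiffAt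
      (isOpen_univ.mem_nhds (mem_univ p))
  have hκd : ∀ p, extd κ p = ν.val A p := fun p => extd_kop_cn hd hν hN hA p
  have hκ0 : ∀ p : V × G, 1 < ‖p.1‖ → κ p = 0 := fun p hp => by
    rw [hκ]
    unfold kop
    simp only [h2 p hp, map_zero]
    simp
  have hA0 : ∀ p : V × G, 1 < ‖p.1‖ → ν.val A p = 0 := fun p hp => by
    rw [← at0_cn_one hA, h2 p hp, map_zero]
  set K : Set (V × G) := closedBall 0 1 ×ˢ closedBall 0 1 with hK
  have hKc : IsCompact K := (isCompact_closedBall _ _).prod (isCompact_closedBall _ _)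
  have hout : ∀ p : V × G, p ∉ K → 1 < ‖p.1‖ ∨ 1 < ‖p.2‖ := fun p hp => by
    by_contra hcon
    push Not at hcon
    exact hp ⟨mem_closedBall_zero_iff.2 hcon.1, mem_closedBall_zero_iff.2 hcon.2⟩
  set w : V × G → Lam (V × G) := fun p => (1 - Co.chi p) • κ p with hw
  have hws : ∀ p, ContDiffAt ℝ ∞ w p := fun p =>
    (contDiffAt_const.sub contDiff_chi.contDiffAt).smul (hκs p)
  have hw0 : ∀ p ∉ K, w p = 0 := fun p hp => by
    rw [hw]
    beta_reduce
    rcases hout p hp with h | h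
    · rw [hκ0 p h, smul_zero]
    · rw [Co.chi_eq_one h.le, sub_self, zero_smul]
  have he : ∀ p, ν.val A p - dx (fderiv ℝ Co.chi p) * κ p = extd w p := fun p => by
    have d1 : DifferentiableAt ℝ (Co.chi : V × G → ℝ) p :=
      contDiff_chi.differentiable (by simp) p
    have d2 : DifferentiableAt ℝ κ p := (hκs p).differentiableAt (by simp)
    have e1 : fderiv ℝ (fun x : V × G => 1 - Co.chi x) p = -fderiv ℝ Co.chi p :=
      fderiv_const_sub (f := (Co.chi : V × G → ℝ)) 1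
    rw [hw, extd_smul (f := fun x : V × G => 1 - Co.chi x) ((differentiableAt_const _).sub d1) d2,
      hκd, e1, map_neg, neg_mul, sub_smul, one_smul]
    have e2 : Co.chi p • ν.val A p = 0 := by
      by_cases h : 1 ≤ 2 * ‖p.2‖ ^ 2
      · rw [h1 p h, smul_zero]
      · push Not at h
        rw [Co.chi_eq_zero h.le, zero_smul]
    rw [e2]
    abel
  have hAc : ∀ p ∉ K, ν.val A p = 0 := fun p hp => by
    rcases hout p hp with h | h
    · exact hA0 p h
    · exact h1 p (by nlinarith [norm_nonneg p.2])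
  have hf : ∀ p, ContDiffAt ℝ ∞ (fun p => dx (fderiv ℝ Co.chi p) * κ p) p := fun p =>
    (smAt_dx contDiff_chi p).mul (hκs p)
  have hfc : ∀ p ∉ K, dx (fderiv ℝ Co.chi p) * κ p = 0 := fun p hp => by
    rcases hout p hp with h | h
    · rw [hκ0 p h, mul_zero]
    · rw [fderiv_chi_out h, map_zero, zero_mul]
  have h5 := JJ_sub b (integrable_of b (fun p => ν.smooth (hA p)) hKc hAc)
    (integrable_of b hf hKc hfc)
  rw [JJ_congr b he, JJ_d hNk b hws hKc hw0] at h5
  linarith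

/-- the homotopy operator does not see the parametrisation of the rays -/
theorem kop_rep {ν : Form D} {A : V × G → X} (hA : ∀ p, D.At A p) {u₀ : (V × G) × ℝ → X}
    {Λ : V × G → ℝ} {p : V × G} (hu : ∀ t, D.At u₀ (p, t)) (hΛ : Sm Λ p)
    (he : ∀ᶠ q in 𝓝 p, ∀ t, cn A (q, t) = u₀ (q, t * Λ q)) (h1 : 1 ≤ Λ p)
    (h0 : ∀ t, 1 < t → at1 (ν.val u₀ (p, t)) = 0) :
    kop (ν.val (cn A)) p = kop (ν.val u₀) p := by
  have e1 : ∀ t, at1 (ν.val (cn A) (p, t)) = Λ p • at1 (ν.val u₀ (p, t * Λ p)) := fun t => by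
    set θ : (V × G) × ℝ → (V × G) × ℝ := fun q => (q.1, q.2 * Λ q.1) with hθ
    have k1 : cn A =ᶠ[𝓝 (p, t)] u₀ ∘ θ := by
      have : Tendsto (Prod.fst : (V × G) × ℝ → V × G) (𝓝 (p, t)) (𝓝 p) :=
        continuous_fst.continuousAt
      filter_upwards [this.eventually he] with q hq
      exact hq q.2
    have k2 : Sm θ (p, t) := by
      refine Sm.prodMk (Sm.of_contDiff contDiff_fst _) ?_
      have k3 : Sm (fun q : (V × G) × ℝ => Λ q.1) (p, t) :=
        Sm.comp (f := Λ) (g := Prod.fst) (x := (p, t)) hΛ (Sm.of_contDiff contDiff_fst _)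
      filter_upwards [k3] with q hq
      exact contDiffAt_snd.mul hq
    rw [ν.congr (at_cn hA _) k1, ν.nat (u := u₀) (g := θ) (x := (p, t)) (hu _) k2]
    have k4 : HasFDerivAt θ ((ContinuousLinearMap.fst ℝ (V × G) ℝ).prod
        (t • ((fderiv ℝ Λ p) ∘L ContinuousLinearMap.fst ℝ (V × G) ℝ) +
          Λ p • ContinuousLinearMap.snd ℝ (V × G) ℝ)) (p, t) := by
      refine hasFDerivAt_fst.prodMk ?_
      have k5 : HasFDerivAt (fun q : (V × G) × ℝ => Λ q.1)
          ((fderiv ℝ Λ p) ∘L ContinuousLinearMap.fst ℝ (V × G) ℝ) (p, t) :=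
        (hΛ.differentiableAt.hasFDerivAt).comp (p, t) hasFDerivAt_fst
      exact hasFDerivAt_snd.mul k5
    rw [k4.fderiv]
    have h7 := at1_pull_shear (ContinuousLinearMap.id ℝ (V × G)) (t • fderiv ℝ Λ p) (Λ p)
      ((ContinuousLinearMap.fst ℝ (V × G) ℝ).prod
        (t • ((fderiv ℝ Λ p) ∘L ContinuousLinearMap.fst ℝ (V × G) ℝ) +
          Λ p • ContinuousLinearMap.snd ℝ (V × G) ℝ))
      (fun q => by simp) (ν.val u₀ (θ (p, t)))
    rw [Fm.pull_id] at h7
    exact h7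
  unfold kop
  simp only [e1]
  set g : ℝ → Lam (V × G) := fun t => at1 (ν.val u₀ (p, t)) with hg
  have hc : Continuous g := by
    refine continuous_iff_continuousAt.2 fun t => ?_
    have k1 : ContinuousAt (ν.val u₀) (p, t) := (ν.smooth (hu t)).continuousAt
    have k2 : ContinuousAt (fun s : ℝ => (p, s)) t := by fun_prop
    exact (at1 (E := V × G)).continuous.continuousAt.comp
      (ContinuousAt.comp (f := fun s : ℝ => (p, s)) (x := t) k1 k2)
  rw [intervalIntegral.integral_smul]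
  have h3 := intervalIntegral.smul_integral_comp_mul_right (a := (0 : ℝ)) (b := 1) g (Λ p)
  refine Eq.trans h3 ?_
  rw [zero_mul, one_mul, ← intervalIntegral.integral_add_adjacent_intervals
    (hc.intervalIntegrable 0 1) (hc.intervalIntegrable 1 (Λ p))]
  have h4 : ∫ t in (1 : ℝ)..(Λ p), g t = 0 := by
    refine intervalIntegral.integral_zero_ae (Eventually.of_forall fun t ht => ?_)
    rw [uIoc_of_le h1] at ht
    exact h0 t ht.1
  rw [h4, add_zero]

/-- **polar coordinates** -/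
theorem polar {N k : ℕ} (hNk : N = k + 1) (b : Basis (Fin N) ℝ (V × G)) {ν : Form D}
    (hd : ν.d = 0) (hν : Form.IsDeg N ν) (hN : finrank ℝ V < N) {A : V × G → X}
    (hA : ∀ p, D.At A p) (h1 : ∀ p : V × G, 1 ≤ 2 * ‖p.2‖ ^ 2 → ν.val A p = 0)
    (h2 : ∀ p : V × G, 1 < ‖p.1‖ → ∀ t, ν.val (cn A) (p, t) = 0)
    {u₀ : (V × G) × ℝ → X} {Λ : V × G → ℝ}
    (hu : ∀ p : V × G, p.2 ≠ 0 → ∀ t, D.At u₀ (p, t)) (hΛ : ∀ p : V × G, p.2 ≠ 0 → Sm Λ p)
    (he : ∀ q : V × G, q.2 ≠ 0 → ∀ t, cn A (q, t) = u₀ (q, t * Λ q))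
    (h3 : ∀ p : V × G, ‖p.1‖ ≤ 1 → 1 ≤ 2 * ‖p.2‖ ^ 2 → 1 ≤ Λ p)
    (h4 : ∀ p : V × G, p.2 ≠ 0 → ∀ t, 1 < t → at1 (ν.val u₀ (p, t)) = 0)
    (h5 : ∀ p : V × G, p.2 ≠ 0 → 1 < ‖p.1‖ → ∀ t, ν.val u₀ (p, t) = 0) :
    JJ b (ν.val A) = JJ b (fun p => dx (fderiv ℝ Co.chi p) * kop (ν.val u₀) p) := by
  rw [polar_cn hNk b hd hν hN hA h1 h2]
  refine JJ_congr b fun p => ?_
  by_cases hp : 2 * ‖p.2‖ ^ 2 < 1
  · rw [fderiv_chi_in hp, map_zero, zero_mul, zero_mul]
  push Not at hp
  have hp0 : p.2 ≠ 0 := by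
    intro h
    rw [h, norm_zero] at hp
    norm_num at hp
  congr 1
  by_cases hx : ‖p.1‖ ≤ 1
  · refine kop_rep hA (hu p hp0) (hΛ p hp0) ?_ (h3 p hx hp) (h4 p hp0)
    have k1 : ContinuousAt (fun q : V × G => q.2) p := continuous_snd.continuousAt
    filter_upwards [k1.eventually_ne hp0] with q hq
    exact he q hq
  · push Not at hx
    unfold kop
    simp only [h2 p hx, h5 p hp0 hx]

end

end Vale.Agent.P231.S3B4c
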