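import Vale.Agent.P231.S3B4c.Fr

/-!
# P231, stage 3, [S3-B] S3-CMP (6): the integral of the fibre integral over `D(ξ)`
-/

set_option maxSynthPendingDepth 3
set_option linter.unusedSectionVars false
set_option linter.unusedVariables false

open Bundle Manifold Set Filter Module MeasureTheory Metric
open scoped ContDiff Manifold Topology ENNReal

namespace Vale.Agent.P231.S3B4c

noncomputable section

open Vale.Agent.P234 Vale.Agent.P231 Vale.Agent.P231.Fm Vale.Agent.P231.W Vale.Agent.P231.WR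
open Vale.Agent.P231.WF Vale.Agent.P231.H766 Vale.Agent.P231.S2N Vale.Agent.P231.S3S
open Vale.Agent.P231.S2II Vale.Agent.P231.TW Vale.Agent.P231.H584 Vale.Agent.P231.XC

variable {E : Type*} [NormedAddCommGroup E] [NormedSpace ℝ E]
  {M : Type*} [MetricSpace M] [ChartedSpace E M]
  [RiemannianBundle (fun x : M => TangentSpace 𝓘(ℝ, E) x)]
  {e : ∀ x : M, TangentSpace 𝓘(ℝ, E) x → M}
  [FiniteDimensional ℝ E] [IsManifold 𝓘(ℝ, E) ∞ M]
  [IsContMDiffRiemannianBundle 𝓘(ℝ, E) ∞ E (fun x : M => TangentSpace 𝓘(ℝ, E) x)]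
  [CompactSpace M] [ConnectedSpace M] [IsRiemannianManifold 𝓘(ℝ, E) M]

variable {D : ℝ} {ι : Type} [Fintype ι] [DecidableEq ι]

variable {F : Facts e} {hD : 0 < D} {hB : InjGE e D} {hdiam : ∀ p q : M, dist p q ≤ D}
  {l : ℕ} {X δ : ι → UT E M → E} {ε : ℝ}

variable {V : Type} [NormedAddCommGroup V] [NormedSpace ℝ V] [FiniteDimensional ℝ V]
  {G₁ : V → UT E M} {f : Fin l → V → EuclideanSpace ℝ ι}

/-- a lower bound for the coefficient vectors over a ball -/
theorem exists_scale [NeZero l]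
    (hP : ∀ x y : M, dist x y = D → finrank ℝ (H775.Pl e D x y) = l + 1)
    (h : Fam F hD hB hdiam l X δ ε) {fr : V → S2II.Fr e D l} (hfr : ∀ x, (dFr e D l).At fr x)
    (hG : ∀ x, (dUT E M).At G₁ x) (hv : ∀ x, (fr x).v = G₁ x) :
    ∃ r : ℝ, 0 < r ∧ ∀ x : V, ‖x‖ ≤ 1 → ∀ y : Eul l, 1 ≤ 2 * ‖y‖ ^ 2 →
      1 < ‖cmbE (fun i => r • mI F hD hB hdiam X δ ε (fr x) i) y‖ := by
  have hV := vec_mI hP h hfr hG hv
  have hK : IsCompact (closedBall (0 : V) 1 ×ˢ sphere (0 : Eul l) 1) :=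
    (isCompact_closedBall _ _).prod (isCompact_sphere _ _)
  have hc : ContinuousOn (fun p : V × Eul l => (‖(hV.A p).a‖⁻¹ : ℝ))
      (closedBall (0 : V) 1 ×ˢ sphere (0 : Eul l) 1) := by
    intro p hp
    refine ContinuousAt.continuousWithinAt ?_
    have h1 : ContinuousAt (fun p : V × Eul l => ‖(hV.A p).a‖) p :=
      (hV.contDiff_a.continuous.norm).continuousAt
    refine h1.inv₀ ?_
    rw [norm_ne_zero_iff]
    refine cmbE_mI_ne hP h (fr p.1) fun h0 => ?_
    have h2 : ‖p.2‖ = 1 := mem_sphere_zero_iff_norm.1 hp.2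
    rw [h0, norm_zero] at h2
    exact zero_ne_one h2
  obtain ⟨C, hC⟩ := hK.exists_bound_of_continuousOn hc
  refine ⟨4 * (|C| + 1), by positivity, fun x hx y hy => ?_⟩
  have hy0 : y ≠ 0 := by
    rintro rfl
    rw [norm_zero] at hy
    norm_num at hy
  have hyn : 1 / 2 ≤ ‖y‖ := by nlinarith [norm_nonneg y]
  set m := mI F hD hB hdiam X δ ε (fr x) with hm
  have e1 : cmbE (fun i => (4 * (|C| + 1)) • m i) y = (4 * (|C| + 1) * ‖y‖) •
      cmbE m ((‖y‖⁻¹ : ℝ) • y) := by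
    rw [map_smul, smul_smul, mul_assoc, mul_inv_cancel₀ (norm_ne_zero_iff.2 hy0), mul_one,
      cmbE_apply, cmbE_apply, Finset.smul_sum]
    refine Finset.sum_congr rfl fun i _ => ?_
    rw [smul_comm]
  have h1 := hC (x, (‖y‖⁻¹ : ℝ) • y) ⟨mem_closedBall_zero_iff.2 hx,
    mem_sphere_zero_iff_norm.2 (norm_nrm hy0)⟩
  have h2 : ‖(‖(hV.A (x, (‖y‖⁻¹ : ℝ) • y)).a‖⁻¹ : ℝ)‖ = ‖cmbE m ((‖y‖⁻¹ : ℝ) • y)‖⁻¹ := by
    rw [norm_inv, norm_norm]
    rfl
  rw [h2] at h1
  have h3 : 0 < ‖cmbE m ((‖y‖⁻¹ : ℝ) • y)‖ := by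
    rw [norm_pos_iff]
    refine cmbE_mI_ne hP h (fr x) fun h0 => ?_
    have h4 := norm_nrm hy0
    rw [h0, norm_zero] at h4
    exact zero_ne_one h4
  have h4 : 1 ≤ C * ‖cmbE m ((‖y‖⁻¹ : ℝ) • y)‖ := by
    have := mul_le_mul_of_nonneg_right h1 h3.le
    rwa [inv_mul_cancel₀ h3.ne'] at this
  rw [e1, norm_smul, Real.norm_of_nonneg (by positivity)]
  have h5 : C ≤ |C| := le_abs_self C
  have h6 : 1 ≤ |C| * ‖cmbE m ((‖y‖⁻¹ : ℝ) • y)‖ :=
    h4.trans (mul_le_mul_of_nonneg_right h5 h3.le)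
  have h7 : 0 ≤ (|C| + 1) * ‖cmbE m ((‖y‖⁻¹ : ℝ) • y)‖ := by positivity
  have h8 : 4 * (|C| + 1) * ‖y‖ * ‖cmbE m ((‖y‖⁻¹ : ℝ) • y)‖ =
      ‖y‖ * (4 * ((|C| + 1) * ‖cmbE m ((‖y‖⁻¹ : ℝ) • y)‖)) := by ring
  rw [h8]
  have h9 : 1 / 2 * (4 * ((|C| + 1) * ‖cmbE m ((‖y‖⁻¹ : ℝ) • y)‖)) ≤
      ‖y‖ * (4 * ((|C| + 1) * ‖cmbE m ((‖y‖⁻¹ : ℝ) • y)‖)) :=
    mul_le_mul_of_nonneg_right hyn (by positivity)
  nlinarith

variable [MeasurableSpace V] [BorelSpace V]

/-- **the fibre integral over the spheres of `L`, and the integral over the bundle of negative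
directions** -/
theorem JJ_SL [NeZero l] (hP : ∀ x y : M, dist x y = D → finrank ℝ (H775.Pl e D x y) = l + 1)
    (h : Fam F hD hB hdiam l X δ ε) {b : Form (dPr e D)} (hb : Orn F hD hB hdiam (l := l) b)
    (hl : Odd l) (hV : Vec F D X δ ε G₁ f) (ho : ∀ x, Orthonormal ℝ fun i => f i x)
    {v₀ : UT E M} (hout : ∀ x, 1 < ‖x‖ → G₁ x = v₀) {n : ℕ} (hn : 0 < n)
    (bV : Basis (Fin n) ℝ V) :
    ∃ c : ℝ, c ^ 2 = 1 ∧ ∀ ν : Form (dXi F D X δ ε), ν.d = 0 → Form.IsDeg (l + n) ν →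
      Zer (XiOne F D X δ ε) ν →
      JJ bV (fun x => (SL F hD hB hdiam hP hb hl
        (Form.K (Form.pull (pol hP h) (map_pol hP h) ν))).val G₁ x) =
        c * JJ (pB bV (bas l).toBasis) (ν.val hV.A) := by
  have hli : ∀ x, LinearIndependent ℝ fun i => f i x := fun x => (ho x).linearIndependent
  obtain ⟨fr, hfro, hv⟩ := exists_fr hP h hb hl hV hli
  have hfr : ∀ x, (dFr e D l).At fr x := fun x => (hfro x).1
  have hG := hV.plot
  obtain ⟨r, hr, hrb⟩ := exists_scale hP h hfr hG hv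
  have hm := vec_mI hP h hfr hG hv
  have hA := hm.smul r
  obtain ⟨c, hc, hcv⟩ := exists_cv_vec h (f' := fun i x => r • mI F hD hB hdiam X δ ε (fr x) i)
    hV hA ho (fun x => by
      have h1 := (li_mI hP h (fr x)).units_smul (fun _ => Units.mk0 r hr.ne')
      exact h1) (pB bV (bas l).toBasis)
  refine ⟨c, hc, fun ν hd hν hz => ?_⟩
  rw [← hcv]
  have hdV : finrank ℝ V = n := by rw [finrank_eq_card_basis bV, Fintype.card_fin]
  have hl0 : 0 < l := NeZero.pos l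
  -- the rays
  set u₀ : (V × Eul l) × ℝ → Xi F D X δ ε := fun q =>
    pol hP h (cone F hD hB hdiam (fr q.1.1, (‖q.1.2‖⁻¹ : ℝ) • q.1.2), q.2) with hu₀
  set u₁ : V × Eul l → Pr e D := fun z =>
    cone F hD hB hdiam (fr z.1, (‖z.2‖⁻¹ : ℝ) • z.2) with hu₁
  have hu1 : ∀ p : V × Eul l, p.2 ≠ 0 → (dPr e D).At u₁ p := fun p hp => by
    refine map_cone F hD hB hdiam (u := fun z : V × Eul l => (fr z.1, (‖z.2‖⁻¹ : ℝ) • z.2))
      (x := p) ⟨⟨?_, ?_⟩, ?_⟩
    · exact (dFr e D l).comp (u := fr) (g := Prod.fst) (x := p) (hfr p.1)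
        (Sm.of_contDiff contDiff_fst _)
    · exact Co.sm_normalize (f := fun z : V × Eul l => z.2) (Sm.of_contDiff contDiff_snd _) hp
    · filter_upwards [continuous_snd.continuousAt.eventually_ne hp] with z hz0
      exact smul_ne_zero (inv_ne_zero (norm_ne_zero_iff.2 hz0)) hz0
  have hu0 : ∀ p : V × Eul l, p.2 ≠ 0 → ∀ t, (dXi F D X δ ε).At u₀ (p, t) := fun p hp t =>
    map_pol hP h (u := Form.cyl u₁) (Form.cyl_at (hu1 p hp) t)
  have hu0v : ∀ q, (u₀ q).v = G₁ q.1.1 := fun q => by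
    change (cone F hD hB hdiam (fr q.1.1, (‖q.1.2‖⁻¹ : ℝ) • q.1.2)).v = _
    rw [cone_v]
    exact hv _
  -- plots over the complement of the unit ball
  have hfar : ∀ {u : (V × Eul l) × ℝ → Xi F D X δ ε} {p : V × Eul l} {t : ℝ},
      (dXi F D X δ ε).At u (p, t) → (∀ q, (u q).v = G₁ q.1.1) → 1 < ‖p.1‖ →
      ν.val u (p, t) = 0 := fun {u p t} hu huv hp => by
    refine val_fibre h hν (by omega) hu (v₀ := v₀) ?_
    have h1 : Continuous fun q : (V × Eul l) × ℝ => ‖q.1.1‖ := by fun_prop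
    filter_upwards [h1.continuousAt.eventually (lt_mem_nhds hp)] with q hq
    rw [huv]
    exact hout _ hq
  have hA0 : ∀ p : V × Eul l, 1 ≤ 2 * ‖p.2‖ ^ 2 → ν.val hA.A p = 0 := fun p hp => by
    by_cases hx : ‖p.1‖ ≤ 1
    · refine hz.out (hA.at_A p) ?_
      have h1 : Continuous fun q : V × Eul l => ‖(hA.A q).a‖ := hA.contDiff_a.continuous.norm
      have h2 : 1 < ‖(hA.A p).a‖ := hrb p.1 hx p.2 hp
      filter_upwards [h1.continuousAt.eventually (lt_mem_nhds h2)] with q hq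
      exact le_of_lt hq
    · push Not at hx
      refine val_fibre h hν (by omega) (hA.at_A p) (v₀ := v₀) ?_
      have h1 : Continuous fun q : V × Eul l => ‖q.1‖ := by fun_prop
      filter_upwards [h1.continuousAt.eventually (lt_mem_nhds hx)] with q hq
      exact hout _ hq
  have hcnv : ∀ q, (cn hA.A q).v = G₁ q.1.1 := fun q => rfl
  have hne : ∀ p : V × Eul l, p.2 ≠ 0 → (hA.A p).a ≠ 0 := fun p hp => by
    have h1 : (hA.A p).a = r • cmbE (mI F hD hB hdiam X δ ε (fr p.1)) p.2 := by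
      change cmbE (fun i => r • mI F hD hB hdiam X δ ε (fr p.1) i) p.2 = _
      rw [cmbE_apply, cmbE_apply, Finset.smul_sum]
      refine Finset.sum_congr rfl fun i _ => ?_
      rw [smul_comm]
    rw [h1]
    exact smul_ne_zero hr.ne' (cmbE_mI_ne hP h _ hp)
  have hray : ∀ q : V × Eul l, q.2 ≠ 0 → ah F hD hB hdiam X δ ε (u₁ q) =
      ‖(hA.A q).a‖⁻¹ • (hA.A q).a := fun q hq => by
    have h1 : (hA.A q).a = r • cmbE (mI F hD hB hdiam X δ ε (fr q.1)) q.2 := by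
      change cmbE (fun i => r • mI F hD hB hdiam X δ ε (fr q.1) i) q.2 = _
      rw [cmbE_apply, cmbE_apply, Finset.smul_sum]
      refine Finset.sum_congr rfl fun i _ => ?_
      rw [smul_comm]
    rw [h1, ah_smul_aux hr]
    exact ah_cone (fr q.1) hq
  have hpol := polar (V := V) (G := Eul l) (N := l + n) (k := l + n - 1) (by omega)
    (pB bV (bas l).toBasis) hd hν
    (by omega) (A := hA.A) hA.at_A hA0
    (fun p hp t => hfar (at_cn hA.at_A (p, t)) hcnv hp)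
    (u₀ := u₀) (Λ := fun p => ‖(hA.A p).a‖) hu0
    (fun p hp => by
      have h1 : Sm (fun p : V × Eul l => (hA.A p).a) p := Sm.of_contDiff hA.contDiff_a p
      have h2 : ∀ᶠ q : V × Eul l in 𝓝 p, q.2 ≠ 0 :=
        continuous_snd.continuousAt.eventually_ne hp
      filter_upwards [h1, h2] with q h3 h4
      exact h3.norm ℝ (hne q h4))
    (fun q hq t => by
      refine Xi.ext ?_ ?_
      · rw [hcnv, hu0v]
      · change cmbE (fun i => r • mI F hD hB hdiam X δ ε (fr q.1) i) (t • q.2) =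
          (t * ‖(hA.A q).a‖) • ah F hD hB hdiam X δ ε (u₁ q)
        rw [hray q hq, smul_smul, mul_assoc, mul_inv_cancel₀ (norm_ne_zero_iff.2 (hne q hq)),
          mul_one, map_smul]
        rfl)
    (fun p hx hp => (hrb p.1 hx p.2 hp).le)
    (fun p hp t ht => by
      have h1 : ν.val u₀ (p, t) = 0 := by
        refine hz.out (hu0 p hp t) ?_
        have h2 : Continuous fun q : (V × Eul l) × ℝ => q.2 := continuous_snd
        filter_upwards [h2.continuousAt.eventually (lt_mem_nhds ht)] with q hq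
        change 1 ≤ ‖(pol hP h (u₁ q.1, q.2)).a‖
        rw [norm_pol hP h _ (zero_le_one.trans hq.le)]
        exact hq.le
      rw [h1, map_zero])
    (fun p hp hx t => hfar (hu0 p hp t) hu0v hx)
  rw [hpol]
  -- the integral along the fibres
  have hK : ∀ p : V × Eul l, p.2 ≠ 0 →
      (Form.K (Form.pull (pol hP h) (map_pol hP h) ν)).val u₁ p = kop (ν.val u₀) p :=
    fun p hp => by
      rw [K_val' _ (hu1 p hp)]
      unfold kop H584.co
      refine intervalIntegral.integral_congr fun t _ => ?_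
      change at1 ((Form.pull (pol hP h) (map_pol hP h) ν).val (Form.cyl u₁) (p, t)) = _
      rw [Form.pull_val _ _ (Form.cyl_at (hu1 p hp) t)]
      rfl
  have hSI := JJ_SI (bun_SL F hD hB hdiam hP hb hl) (bas l) bV (fr := fr) hfro
    (Form.K (Form.pull (pol hP h) (map_pol hP h) ν)) (K := closedBall 0 1)
    (isCompact_closedBall _ _) (fun x hx y hy => by
      rw [mem_closedBall_zero_iff, not_le] at hx
      refine (hK (x, y) hy).trans ?_
      unfold kop
      have h1 : ∀ t, ν.val u₀ ((x, y), t) = 0 := fun t => hfar (hu0 (x, y) hy t) hu0v hx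
      simp only [h1, map_zero]
      simp)
  have hG1 : (fun y => S2II.Fr.v (fr y)) = G₁ := funext hv
  rw [hG1] at hSI
  refine hSI.trans (JJ_congr _ fun p => ?_)
  by_cases hp : p.2 = 0
  · have h3 : fderiv ℝ (Co.chi : V × Eul l → ℝ) p = 0 := fderiv_chi_in (by rw [hp]; simp)
    rw [h3, map_zero, zero_mul, zero_mul]
  · congr 1
    exact hK p hp

end

end Vale.Agent.P231.S3B4c
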