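import Vale.Agent.P231.S3B4c.Pol
import Vale.Agent.P231.Co.SI
import Vale.Agent.P231.TW.Prod

/-!
# P231, stage 3, [S3-B] S3-CMP (3): the integral of an integral along the fibres
-/

set_option maxSynthPendingDepth 3
set_option linter.unusedSectionVars false
set_option linter.unusedVariables false

open Module MeasureTheory Set Metric Filter
open scoped ContDiff Topology

namespace Vale.Agent.P231.S3B4c

open Fm TW H584 S3B4

noncomputable section

variable {X : Type*} {D : Dif X}
variable {V G : Type} [NormedAddCommGroup V] [NormedSpace ℝ V] [FiniteDimensional ℝ V]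
  [NormedAddCommGroup G] [InnerProductSpace ℝ G] [FiniteDimensional ℝ G]

theorem chi_cylF (u : V → X) : (Co.chi ∘ cylF (F := G) u) = (Co.chi : V × G → ℝ) := rfl

/-- the value of `dχ ∧ n^* σ` -/
theorem dx_val {fr : V → X} (hfr : ∀ x, D.At fr x) (σ : Form (Co.SB D G)) (p : V × G) :
    (Co.dx σ).val (cylF fr) p =
      dx (fderiv ℝ Co.chi p) * σ.val (fun z : V × G => (fr z.1, ‖z.2‖⁻¹ • z.2)) p := by
  have hp : (Co.D1 D G).At (cylF fr) p := cylF_at (hfr p.1) p.2
  have h1 : (Co.chf D G).d.val (cylF fr) p = dx (fderiv ℝ Co.chi p) := by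
    rw [Form.d_val _ hp]
    have h2 : (Co.chf D G).val (cylF fr) =ᶠ[𝓝 p] fn (Co.chi : V × G → ℝ) := by
      filter_upwards [(Co.D1 D G).open' hp] with q hq
      rw [Co.chf, Form.fn_val _ _ hq]
      rfl
    rw [extd_congr h2, extd_fn (contDiff_chi.differentiable (by simp) p)]
  rw [Co.dx, Form.mx_val, h1]
  by_cases h0 : p.2 = 0
  · have h3 : fderiv ℝ (Co.chi : V × G → ℝ) p = 0 := fderiv_chi_in (by rw [h0]; simp)
    rw [h3, map_zero, zero_mul, zero_mul]
  · congr 1
    have h4 : (Co.PB D G).At (cylF fr) p := by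
      refine ⟨hp, ?_⟩
      have k1 : ContinuousAt (fun q : V × G => q.2) p := continuous_snd.continuousAt
      filter_upwards [k1.eventually_ne h0] with q hq
      exact hq
    rw [Form.pull_val _ _ h4]
    rfl

variable [MeasurableSpace V] [BorelSpace V] [MeasurableSpace G] [BorelSpace G]

/-- **integration along the fibres, then along the base** -/
theorem JJ_SI {B S Fr : Type*} {DB : Dif B} {DS : Dif S} {DF : Dif Fr} {π : S → B} {q : Fr → B}
    {ev : Fr × G → S} (h : Co.Bun DB DS DF G π q ev) {m k : ℕ}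
    (o : OrthonormalBasis (Fin m) ℝ G) (bV : Basis (Fin k) ℝ V) {fr : V → Fr}
    (hfr : ∀ x, DF.At fr x) (σ : Form DS) {K : Set V} (hK : IsCompact K)
    (h0 : ∀ x ∉ K, ∀ y : G, y ≠ 0 →
      σ.val (fun z : V × G => ev (fr z.1, ‖z.2‖⁻¹ • z.2)) (x, y) = 0) :
    JJ bV (fun x => (h.SI o σ).val (fun y => q (fr y)) x) =
      JJ (pB bV o.toBasis) (fun p => dx (fderiv ℝ Co.chi p) *
        σ.val (fun z : V × G => ev (fr z.1, ‖z.2‖⁻¹ • z.2)) p) := by
  set τ : Form (Co.D1 DF G) := Co.dx (Form.pull ev h.hev σ) with hτ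
  have hval : ∀ p : V × G, τ.val (cylF fr) p = dx (fderiv ℝ Co.chi p) *
      σ.val (fun z : V × G => ev (fr z.1, ‖z.2‖⁻¹ • z.2)) p := fun p => by
    rw [hτ, dx_val hfr]
    by_cases hp : p.2 = 0
    · have h3 : fderiv ℝ (Co.chi : V × G → ℝ) p = 0 := fderiv_chi_in (by rw [hp]; simp)
      rw [h3, map_zero, zero_mul, zero_mul]
    · congr 1
      refine Form.pull_val (u := fun z : V × G => (fr z.1, ‖z.2‖⁻¹ • z.2)) (x := p) _ _ ?_
      have h4 : (Co.PB DF G).At (cylF fr) p := by
        refine ⟨cylF_at (hfr p.1) p.2, ?_⟩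
        have k1 : ContinuousAt (fun q : V × G => q.2) p := continuous_snd.continuousAt
        filter_upwards [k1.eventually_ne hp] with q hq
        exact hq
      exact Co.map_nrm h4
  have hvc : Form.VC τ 1 := Co.vc_of_van (Co.vc_dx _)
  -- the value of the fibre integral
  have h1 : ∀ x, (h.SI o σ).val (fun y => q (fr y)) x =
      ∫ y, slice o (τ.val (cylF fr) (x, y)) := fun x => by
    have e1 := congrArg (fun f : Form DF => f.val fr x) (h.pull_SI o σ)
    change (Form.pull q h.hq.map (h.SI o σ)).val fr x = (Co.si o (Form.pull ev h.hev σ)).val fr x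
      at e1
    rw [Form.pull_val _ _ (hfr x)] at e1
    refine e1.trans ?_
    exact Form.fi_val hvc (hfr x)
  have h2 : ∀ x, evalForm ((h.SI o σ).val (fun y => q (fr y)) x) bV =
      ∫ y, evalForm (slice o (τ.val (cylF fr) (x, y))) bV := fun x => by
    rw [h1 x]
    exact ((evalL bV).integral_comp_comm (hvc.integrable (hfr x) o)).symm
  have hc : Continuous fun z : V × G => evalForm (τ.val (cylF fr) z) (pB bV o.toBasis) := by
    have k1 : Continuous (τ.val (cylF fr)) := continuous_iff_continuousAt.2 fun z =>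
      (τ.smooth (cylF_at (hfr z.1) z.2)).continuousAt
    exact (evalL _).continuous.comp k1
  have h3 := JJ_pB bV o.toBasis (w := τ.val (cylF fr)) hc (K := K ×ˢ closedBall (0 : G) 1)
    (hK.prod (isCompact_closedBall _ _)) (fun z hz => by
      have k1 : τ.val (cylF fr) z = 0 := by
        by_cases hx : z.1 ∈ K
        · have hy : z.2 ∉ closedBall (0 : G) 1 := fun hy => hz ⟨hx, hy⟩
          exact hvc.out (hfr z.1) hy
        · by_cases hy : z.2 = 0
          · have h3 : fderiv ℝ (Co.chi : V × G → ℝ) z = 0 := fderiv_chi_in (by rw [hy]; simp)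
            rw [hval, h3, map_zero, zero_mul]
          · rw [hval, h0 z.1 hx z.2 hy, mul_zero]
      rw [k1]
      exact Q.evalForm_zero _)
  rw [JJ_congr (pB bV o.toBasis) (v := fun p => dx (fderiv ℝ Co.chi p) *
        σ.val (fun z : V × G => ev (fr z.1, ‖z.2‖⁻¹ • z.2)) p) (w := τ.val (cylF fr))
        fun p => (hval p).symm, h3]
  unfold JJ
  refine integral_congr_ae (Eventually.of_forall fun x => ?_)
  change evalForm ((h.SI o σ).val (fun y => q (fr y)) x) bV = _
  rw [h2 x, OrthonormalBasis.coe_toBasis, OrthonormalBasis.addHaar_eq_volume]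

end

end Vale.Agent.P231.S3B4c
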